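import Vale.Agent.P040.RS
import Mathlib.LinearAlgebra.Matrix.Rank
import Mathlib.Tactic.LinearCombination

namespace Vale.Agent.P040

open Polynomial Finset

variable {A B : Type} [Fintype A] [DecidableEq A] [Fintype B] [DecidableEq B]
  {t : A → ℂ} {r : B → ℂ}

theorem split_pair (ht : Function.Injective t) {p q : ℕ} (hpq : p + q + 1 ≤ Fintype.card A)
    (a0 : A) : ∃ h1 h2 : A → ℂ, (∀ f ∈ RS t p, ∑ a, wt t a * (h1 a * f a) = 0) ∧
      (∀ f ∈ RS t q, ∑ a, wt t a * (h2 a * f a) = 0) ∧ h1 a0 * h2 a0 ≠ 0 ∧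
      ∀ a, a ≠ a0 → h1 a * h2 a = 0 := by
  have hc : (Finset.univ.erase a0).card = Fintype.card A - 1 := by
    rw [Finset.card_erase_of_mem (Finset.mem_univ _), Finset.card_univ]
  obtain ⟨S2, hS2, hc2⟩ := Finset.exists_subset_card_eq (s := Finset.univ.erase a0) (n := p)
    (by omega)
  set S1 := Finset.univ.erase a0 \ S2 with hS1
  have hc1 : S1.card = Fintype.card A - 1 - p := by
    rw [hS1, Finset.card_sdiff_of_subset hS2, hc, hc2]
  refine ⟨fun a => ∏ z ∈ S1, (t a - t z), fun a => ∏ z ∈ S2, (t a - t z), ?_, ?_, ?_, ?_⟩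
  · intro f hf
    exact sum_wt ht (d := S1.card + p) (by omega) (RS.mul (RS.nodal S1 (by omega)) hf)
  · intro f hf
    exact sum_wt ht (d := S2.card + q) (by omega) (RS.mul (RS.nodal S2 (by omega)) hf)
  · refine mul_ne_zero (nodal_ne ht (by simp [hS1])) (nodal_ne ht fun h => ?_)
    simpa using hS2 h
  · intro a ha
    by_cases h : a ∈ S2
    · simp only [nodal_zero h, mul_zero]
    · have : a ∈ S1 := by simp [hS1, ha, h]
      simp only [nodal_zero this, zero_mul]

/-- Division by `t a - t b`, with the diagonal filled in. -/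
noncomputable def divDiag (t : A → ℂ) (v : A → A → ℂ) (a b : A) : ℂ :=
  if a = b then -(wt t a)⁻¹ * ∑ a' ∈ Finset.univ.erase a, wt t a' * (v a' a / (t a' - t a))
  else v a b / (t a - t b)

theorem divDiag_spec (ht : Function.Injective t) {p q : ℕ}
    (hpq : p + (q + 1) + 1 ≤ Fintype.card A) (v : A → A → ℂ)
    (hc : ∀ b, (fun a => v a b) ∈ RS t p) (hr : ∀ a, (fun b => v a b) ∈ RS t (q + 1))
    (hd : ∀ a, v a a = 0) :
    (∀ b, (fun a => divDiag t v a b) ∈ RS t p) ∧ ∀ a, (fun b => divDiag t v a b) ∈ RS t q := by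
  have hne : ∀ a b, a ≠ b → t a - t b ≠ 0 := fun a b h => sub_ne_zero.mpr fun e => h (ht e)
  have hcol : ∀ b, (fun a => divDiag t v a b) ∈ RS t p := by
    intro b
    obtain ⟨g, hg, hgv⟩ := RS.div (RS.mono (Nat.le_succ p) (hc b)) (hd b)
    have hgp : g ∈ RS t p := hg
    have hoff : ∀ a, a ≠ b → v a b / (t a - t b) = g a := by
      intro a ha
      have := hgv a
      rw [this, mul_div_cancel_left₀ _ (hne a b ha)]
    convert hgp using 1
    funext a
    unfold divDiag
    split_ifs with h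
    · subst h
      have h1 := sum_wt ht (by omega) hgp
      rw [← Finset.add_sum_erase _ _ (Finset.mem_univ a)] at h1
      rw [Finset.sum_congr rfl fun a' ha' => by rw [hoff a' (Finset.ne_of_mem_erase ha')]]
      have h2 := wt_ne ht a
      field_simp
      linear_combination -h1
    · exact hoff a h
  refine ⟨hcol, ?_⟩
  have hrow : ∀ a, ∃ g ∈ RS t q, ∀ b, b ≠ a → divDiag t v a b = g b := by
    intro a
    obtain ⟨g, hg, hgv⟩ := RS.div (hr a) (hd a)
    refine ⟨fun b => -1 * g b, RS.const_mul _ hg, fun b hb => ?_⟩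
    have := hgv b
    rw [divDiag, if_neg hb.symm, this]
    have := hne a b hb.symm
    field_simp
    ring
  choose g hg hgv using hrow
  intro a0
  convert hg a0 using 1
  funext b
  by_cases hb : b = a0
  · subst hb
    obtain ⟨h1, h2, o1, o2, n0, z0⟩ := split_pair ht (p := p) (q := q) (by omega) b
    have e1 : ∑ a, ∑ c, wt t a * h1 a * (wt t c * h2 c) * divDiag t v a c = 0 := by
      rw [Finset.sum_comm]
      refine Finset.sum_eq_zero fun c _ => ?_
      have := congrArg (fun z => wt t c * h2 c * z) (o1 _ (hcol c))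
      simp only [mul_zero, Finset.mul_sum] at this
      refine Eq.trans (Finset.sum_congr rfl fun a _ => by ring) this
    have e2 : ∑ a, ∑ c, wt t a * h1 a * (wt t c * h2 c) * g a c = 0 := by
      refine Finset.sum_eq_zero fun a _ => ?_
      have := congrArg (fun z => wt t a * h1 a * z) (o2 _ (hg a))
      simp only [mul_zero, Finset.mul_sum] at this
      refine Eq.trans (Finset.sum_congr rfl fun c _ => by ring) this
    have e3 : ∑ a, ∑ c, wt t a * h1 a * (wt t c * h2 c) * (divDiag t v a c - g a c) = 0 := by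
      simp only [mul_sub, Finset.sum_sub_distrib, e1, e2, sub_zero]
    rw [Finset.sum_eq_single b, Finset.sum_eq_single b] at e3
    · have h3 : wt t b * h1 b * (wt t b * h2 b) ≠ 0 := by
        have := mul_ne_zero (mul_ne_zero (wt_ne ht b) (wt_ne ht b)) n0
        convert this using 1
        ring
      exact sub_eq_zero.mp ((mul_eq_zero.mp e3).resolve_left h3)
    · intro c _ hc
      rw [hgv b c hc, sub_self, mul_zero]
    · simp
    · intro a _ ha
      refine Finset.sum_eq_zero fun c _ => ?_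
      by_cases hca : c = a
      · subst hca
        linear_combination (wt t c * wt t c * (divDiag t v c c - g c c)) * z0 c ha
      · rw [hgv a c hca, sub_self, mul_zero]
    · simp
  · exact hgv a0 b hb

/-- Degree bounds along the four axes. -/
def Box (t : A → ℂ) (r : B → ℂ) (p q p' q' : ℕ) (u : A → A → B → B → ℂ) : Prop :=
  (∀ b x y, (fun a => u a b x y) ∈ RS t p) ∧ (∀ a x y, (fun b => u a b x y) ∈ RS t q) ∧
    (∀ a b y, (fun x => u a b x y) ∈ RS r p') ∧ ∀ a b x, (fun y => u a b x y) ∈ RS r q'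

/-- `Ω` annihilates all arrays with zero line sums that vanish when `x = y`. -/
def Cyc (Ω : A → A → B → B → ℂ) : Prop :=
  ∀ Z : A → A → B → B → ℂ, (∀ b x y, ∑ a, Z a b x y = 0) → (∀ a x y, ∑ b, Z a b x y = 0) →
    (∀ a b y, ∑ x, Z a b x y = 0) → (∀ a b x, ∑ y, Z a b x y = 0) → (∀ a b x, Z a b x x = 0) →
    ∑ a, ∑ b, ∑ x, ∑ y, Ω a b x y * Z a b x y = 0

theorem sum_wt_lin (hr : Function.Injective r) {p q : ℕ} (hn : p + q + 1 = Fintype.card B)
    {f g l : B → ℂ} (hf : f ∈ RS r p) (hg : g ∈ RS r q) (hl : l ∈ RS r (1 + 1)) :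
    ∑ x, wt r x * (l x * f x * g x) = 0 :=
  sum_wt hr (d := p + q) hn.le (RS.mul (d := p) (by
    have := RS.mul hl hf
    rwa [add_comm] at this) hg)

theorem scale_sum {ι : Type} [Fintype ι] {F G : ι → ℂ} (c : ℂ) (h : ∑ i, F i = 0)
    (e : ∀ i, G i = c * F i) : ∑ i, G i = 0 := by
  rw [Finset.sum_congr rfl fun i _ => e i, ← Finset.mul_sum, h, mul_zero]

section inj
variable (ht : Function.Injective t) (hr : Function.Injective r) {Ω : A → A → B → B → ℂ}
  (hΩ : Cyc Ω) {c : ℂ} (hc : c ≠ 0)
  (hord : ∀ a, ∃ ρ : B ≃ Fin (Fintype.card B), ∀ x y, x ≠ y →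
    Ω a a x y = if ρ x < ρ y then c else 0)
include ht hr hΩ hc hord

theorem diag_zero {p q p' q' : ℕ} (hm : p + q + 1 ≤ Fintype.card A)
    (hn : p' + q' + 1 = Fintype.card B) {u : A → A → B → B → ℂ} (hu : Box t r p q p' q' u)
    (h0 : ∀ a b x y, a ≠ b → x ≠ y → Ω a b x y ≠ 0 → u a b x y = 0) (a0 : A) (x y : B) :
    u a0 a0 x y = 0 := by
  obtain ⟨ρ0, hρ0⟩ := hord a0
  let ρ : B ≃ Fin (p' + q' + 1) := ρ0.trans (finCongr hn.symm)
  have hρ : ∀ x y, ρ x < ρ y ↔ ρ0 x < ρ0 y := fun x y => Iff.rfl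
  obtain ⟨h1, h2, o1, o2, n0, z0⟩ := split_pair ht hm a0
  obtain ⟨u1, u2, u3, u4⟩ := hu
  have key := tri_nondeg hr ρ (fun x y => wt r x * wt r y * (r x - r y) * u a0 a0 x y)
    (fun x g hg => scale_sum (wt r x)
      (sum_wt_lin hr (by omega) (u4 a0 a0 x) hg (RS.lin' (r x))) fun y => by ring)
    (fun y f hf => scale_sum (wt r y)
      (sum_wt_lin hr hn (u3 a0 a0 y) hf (RS.lin (r y))) fun x => by ring)
    (fun x => by simp) (by
      intro f hf g hg
      have h := hΩ (fun a b x y => (wt t a * h1 a) * (wt t b * h2 b) * (wt r x * f x) *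
        (wt r y * g y) * (r x - r y) * u a b x y)
        (fun b x y => scale_sum ((wt t b * h2 b) * (wt r x * f x) * (wt r y * g y) * (r x - r y))
          (o1 _ (u1 b x y)) fun a => by ring)
        (fun a x y => scale_sum ((wt t a * h1 a) * (wt r x * f x) * (wt r y * g y) * (r x - r y))
          (o2 _ (u2 a x y)) fun b => by ring)
        (fun a b y => scale_sum ((wt t a * h1 a) * (wt t b * h2 b) * (wt r y * g y))
          (sum_wt_lin hr hn (u3 a b y) hf (RS.lin (r y))) fun x => by ring)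
        (fun a b x => scale_sum ((wt t a * h1 a) * (wt t b * h2 b) * (wt r x * f x))
          (sum_wt_lin hr (by omega) (u4 a b x) hg (RS.lin' (r x))) fun y => by ring)
        (fun a b x => by simp)
      have hoff : ∀ a b, a ≠ b → ∑ x, ∑ y, Ω a b x y * ((wt t a * h1 a) * (wt t b * h2 b) *
          (wt r x * f x) * (wt r y * g y) * (r x - r y) * u a b x y) = 0 := by
        intro a b hab
        refine Finset.sum_eq_zero fun x _ => Finset.sum_eq_zero fun y _ => ?_
        by_cases hxy : x = y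
        · simp [hxy]
        · by_cases hO : Ω a b x y = 0
          · rw [hO, zero_mul]
          · rw [h0 a b x y hab hxy hO, mul_zero, mul_zero]
      rw [Finset.sum_eq_single a0, Finset.sum_eq_single a0] at h
      · have h3 : c * (wt t a0 * wt t a0 * (h1 a0 * h2 a0)) ≠ 0 :=
          mul_ne_zero hc (mul_ne_zero (mul_ne_zero (wt_ne ht a0) (wt_ne ht a0)) n0)
        refine (mul_eq_zero.mp (Eq.trans ?_ h)).resolve_left h3
        rw [Finset.mul_sum]
        refine Finset.sum_congr rfl fun x _ => ?_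
        rw [Finset.mul_sum]
        refine Finset.sum_congr rfl fun y _ => ?_
        by_cases hxy : x = y
        · simp [hxy]
        · rw [hρ0 x y hxy]
          simp only [hρ]
          split_ifs
          · ring
          · ring
      · intro b _ hb
        exact hoff a0 b hb.symm
      · simp
      · intro a _ ha
        refine Finset.sum_eq_zero fun b _ => ?_
        by_cases hab : a = b
        · subst hab
          refine Finset.sum_eq_zero fun x _ => Finset.sum_eq_zero fun y _ => ?_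
          linear_combination (Ω a a x y * (wt t a * wt t a * (wt r x * f x) * (wt r y * g y) *
            (r x - r y) * u a a x y)) * z0 a ha
        · exact hoff a b hab
      · simp)
  have hoffd : ∀ x y, x ≠ y → u a0 a0 x y = 0 := by
    intro x y hxy
    have := key x y
    exact (mul_eq_zero.mp this).resolve_left (mul_ne_zero (mul_ne_zero (wt_ne hr x) (wt_ne hr y))
      (sub_ne_zero.mpr fun e => hxy (hr e)))
  refine RS.eq_zero_of_zeros hr (u4 a0 a0 x) (Finset.univ.erase x) ?_ ?_ y
  · rw [Finset.card_erase_of_mem (Finset.mem_univ _), Finset.card_univ]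
    omega
  · intro z hz
    exact hoffd x z (Finset.ne_of_mem_erase hz).symm

theorem box_inj {p p' q' : ℕ} (hn : p' + q' + 1 = Fintype.card B) :
    ∀ q : ℕ, p + q + 1 ≤ Fintype.card A → ∀ u : A → A → B → B → ℂ, Box t r p q p' q' u →
    (∀ a b x y, a ≠ b → x ≠ y → Ω a b x y ≠ 0 → u a b x y = 0) →
    ∀ a b x y, u a b x y = 0 := by
  intro q
  induction q with
  | zero => exact fun _ u hu _ a b x y => RS.eq_zero (hu.2.1 a x y) b
  | succ q ih =>
    intro hm u hu h0
    have hd := diag_zero ht hr hΩ hc hord hm hn hu h0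
    obtain ⟨u1, u2, u3, u4⟩ := hu
    have hs := fun x y => divDiag_spec ht hm (fun a b => u a b x y) (fun b => u1 b x y)
      (fun a => u2 a x y) (fun a => hd a x y)
    have h := ih (by omega) (fun a b x y => divDiag t (fun a b => u a b x y) a b)
      ⟨fun b x y => (hs x y).1 b, fun a x y => (hs x y).2 a, ?_, ?_⟩ ?_
    · intro a b x y
      by_cases hab : a = b
      · rw [hab, hd]
      · have := h a b x y
        rw [divDiag, if_neg hab, div_eq_zero_iff] at this
        exact this.resolve_right (sub_ne_zero.mpr fun e => hab (ht e))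
    · intro a b y
      by_cases hab : a = b <;> simp only [divDiag, hab, if_true, if_false]
      · refine RS.const_mul _ (RS.sum _ fun a' _ => RS.const_mul _ ?_)
        simp only [div_eq_mul_inv]
        exact RS.mul_const _ (u3 a' b y)
      · simp only [div_eq_mul_inv]
        exact RS.mul_const _ (u3 a b y)
    · intro a b x
      by_cases hab : a = b <;> simp only [divDiag, hab, if_true, if_false]
      · refine RS.const_mul _ (RS.sum _ fun a' _ => RS.const_mul _ ?_)
        simp only [div_eq_mul_inv]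
        exact RS.mul_const _ (u4 a' b x)
      · simp only [div_eq_mul_inv]
        exact RS.mul_const _ (u4 a b x)
    · intro a b x y hab hxy hO
      rw [divDiag, if_neg hab, h0 a b x y hab hxy hO, zero_div]

end inj

omit [DecidableEq A] in
theorem pow_indep (ht : Function.Injective t) {p : ℕ} (hp : p ≤ Fintype.card A) (c : Fin p → ℂ)
    (h : ∀ a, ∑ i, c i * t a ^ i.val = 0) (i : Fin p) : c i = 0 := by
  have h1 : (∑ i : Fin p, C (c i) * X ^ i.val : ℂ[X]) = 0 := by
    apply eq_zero_of_degree_lt_of_eval_index_eq_zero Finset.univ ht.injOn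
    · refine (degree_sum_fin_lt c).trans_le ?_
      rw [Finset.card_univ]
      exact_mod_cast hp
    · intro a _
      simpa [eval_finsetSum] using h a
  have h2 := congrArg (fun P : ℂ[X] => P.coeff i.val) h1
  simp only [finsetSum_coeff, coeff_C_mul_X_pow, coeff_zero] at h2
  rw [Finset.sum_eq_single i] at h2
  · simpa using h2
  · intro j _ hj
    rw [if_neg fun e => hj (Fin.ext e.symm)]
  · simp

/-- Monomials in the four node values. -/
noncomputable def mono (t : A → ℂ) (r : B → ℂ) {p q p' q' : ℕ}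
    (i : Fin p × Fin q × Fin p' × Fin q') (a b : A) (x y : B) : ℂ :=
  t a ^ i.1.val * t b ^ i.2.1.val * r x ^ i.2.2.1.val * r y ^ i.2.2.2.val

omit [Fintype A] [DecidableEq A] [Fintype B] [DecidableEq B] in
theorem box_comb {p q p' q' : ℕ} (c : Fin p × Fin q × Fin p' × Fin q' → ℂ) :
    Box t r p q p' q' fun a b x y => ∑ i, c i * mono t r i a b x y := by
  refine ⟨fun b x y => ?_, fun a x y => ?_, fun a b y => ?_, fun a b x => ?_⟩
  · exact RS.sum _ fun i _ => RS.const_mul _
      (RS.mul_const _ (RS.mul_const _ (RS.mul_const _ (RS.pow i.1.2))))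
  · exact RS.sum _ fun i _ => RS.const_mul _
      (RS.mul_const _ (RS.mul_const _ (RS.const_mul _ (RS.pow i.2.1.2))))
  · exact RS.sum _ fun i _ => RS.const_mul _
      (RS.mul_const _ (RS.const_mul _ (RS.pow i.2.2.1.2)))
  · exact RS.sum _ fun i _ => RS.const_mul _ (RS.const_mul _ (RS.pow i.2.2.2.2))

omit [DecidableEq A] [DecidableEq B] in
theorem mono_indep (ht : Function.Injective t) (hr : Function.Injective r) {p q p' q' : ℕ}
    (hp : p ≤ Fintype.card A) (hq : q ≤ Fintype.card A) (hp' : p' ≤ Fintype.card B)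
    (hq' : q' ≤ Fintype.card B) (c : Fin p × Fin q × Fin p' × Fin q' → ℂ)
    (h : ∀ a b x y, ∑ i, c i * mono t r i a b x y = 0) (i) : c i = 0 := by
  obtain ⟨i, j, k, l⟩ := i
  refine pow_indep hr hq' (fun l => c (i, j, k, l)) (fun y => ?_) l
  refine pow_indep hr hp' (fun k => ∑ l, c (i, j, k, l) * r y ^ l.val) (fun x => ?_) k
  refine pow_indep ht hq (fun j => ∑ k, (∑ l, c (i, j, k, l) * r y ^ l.val) * r x ^ k.val)
    (fun b => ?_) j
  refine pow_indep ht hp
    (fun i => ∑ j, (∑ k, (∑ l, c (i, j, k, l) * r y ^ l.val) * r x ^ k.val) * t b ^ j.val)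
    (fun a => ?_) i
  refine Eq.trans ?_ (h a b x y)
  simp only [Fintype.sum_prod_type, Finset.sum_mul, mono]
  refine Finset.sum_congr rfl fun i _ => Finset.sum_congr rfl fun j _ =>
    Finset.sum_congr rfl fun k _ => Finset.sum_congr rfl fun l _ => by ring

theorem algebra_bound (ht : Function.Injective t) (hr : Function.Injective r)
    {Ω : A → A → B → B → ℂ} (hΩ : Cyc Ω) {c : ℂ} (hc : c ≠ 0)
    (hord : ∀ a, ∃ ρ : B ≃ Fin (Fintype.card B), ∀ x y, x ≠ y →
      Ω a a x y = if ρ x < ρ y then c else 0)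
    {p q p' q' : ℕ} (hm : p + q + 1 = Fintype.card A) (hn : p' + q' + 1 = Fintype.card B)
    (R : Finset (A × A × B × B))
    (hR : ∀ a b x y, a ≠ b → x ≠ y → Ω a b x y ≠ 0 → (a, b, x, y) ∈ R) :
    2 * (p * q * (p' * q')) ≤ R.card := by
  classical
  let R' := R.filter fun o => o.1 ≠ o.2.1 ∧ o.2.2.1 ≠ o.2.2.2 ∧ Ω o.1 o.2.1 o.2.2.1 o.2.2.2 ≠ 0
  let κ : A → A → B → B → ℂ := fun a b x y =>
    wt t a * wt t b * wt r x * wt r y * (t a - t b) * (r x - r y)
  let M1 : Matrix (Fin p × Fin q × Fin p' × Fin q') R' ℂ := fun i o =>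
    Ω o.1.1 o.1.2.1 o.1.2.2.1 o.1.2.2.2 * κ o.1.1 o.1.2.1 o.1.2.2.1 o.1.2.2.2 *
      mono t r i o.1.1 o.1.2.1 o.1.2.2.1 o.1.2.2.2
  let M2 : Matrix (Fin q × Fin p × Fin q' × Fin p') R' ℂ := fun i o =>
    mono t r i o.1.1 o.1.2.1 o.1.2.2.1 o.1.2.2.2
  have hmem : ∀ a b x y, a ≠ b → x ≠ y → Ω a b x y ≠ 0 → (a, b, x, y) ∈ R' :=
    fun a b x y h1 h2 h3 => Finset.mem_filter.mpr ⟨hR a b x y h1 h2 h3, h1, h2, h3⟩
  have hmul : M1 * M2.transpose = 0 := by
    ext i j
    obtain ⟨u1, u2, u3, u4⟩ := box_comb (t := t) (r := r) (Pi.single i (1 : ℂ))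
    obtain ⟨k1, k2, k3, k4⟩ := box_comb (t := t) (r := r) (Pi.single j (1 : ℂ))
    simp only [Pi.single_apply, ite_mul, one_mul, zero_mul, Finset.sum_ite_eq', Finset.mem_univ,
      if_true] at u1 u2 u3 u4 k1 k2 k3 k4
    have h := hΩ (fun a b x y => κ a b x y * mono t r i a b x y * mono t r j a b x y)
      (fun b x y => scale_sum (wt t b * wt r x * wt r y * (r x - r y))
        (sum_wt_lin ht hm (u1 b x y) (k1 b x y) (RS.lin (t b))) fun a => by simp only [κ]; ring)
      (fun a x y => scale_sum (wt t a * wt r x * wt r y * (r x - r y))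
        (sum_wt_lin ht hm (k2 a x y) (u2 a x y) (RS.lin' (t a))) fun b => by simp only [κ]; ring)
      (fun a b y => scale_sum (wt t a * wt t b * wt r y * (t a - t b))
        (sum_wt_lin hr hn (u3 a b y) (k3 a b y) (RS.lin (r y))) fun x => by simp only [κ]; ring)
      (fun a b x => scale_sum (wt t a * wt t b * wt r x * (t a - t b))
        (sum_wt_lin hr hn (k4 a b x) (u4 a b x) (RS.lin' (r x))) fun y => by simp only [κ]; ring)
      (fun a b x => by simp [κ])
    rw [Matrix.mul_apply, Matrix.zero_apply, ← h]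
    refine Eq.trans (Finset.sum_coe_sort R' (fun o : A × A × B × B => Ω o.1 o.2.1 o.2.2.1 o.2.2.2 *
      κ o.1 o.2.1 o.2.2.1 o.2.2.2 * mono t r i o.1 o.2.1 o.2.2.1 o.2.2.2 *
      mono t r j o.1 o.2.1 o.2.2.1 o.2.2.2)) ?_
    rw [Finset.sum_subset (Finset.subset_univ R')]
    · simp only [Fintype.sum_prod_type]
      refine Finset.sum_congr rfl fun a _ => Finset.sum_congr rfl fun b _ =>
        Finset.sum_congr rfl fun x _ => Finset.sum_congr rfl fun y _ => by ring
    · rintro ⟨a, b, x, y⟩ _ ho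
      by_cases h1 : a = b
      · simp [κ, h1]
      by_cases h2 : x = y
      · simp [κ, h2]
      by_cases h3 : Ω a b x y = 0
      · simp [h3]
      exact absurd (hmem a b x y h1 h2 h3) ho
  have hrk := Matrix.rank_add_rank_le_card_of_mul_eq_zero hmul
  have l1 : LinearIndependent ℂ M1.row := by
    rw [Fintype.linearIndependent_iff]
    intro g hg
    apply mono_indep ht hr (by omega) (by omega) (by omega) (by omega) g
    apply box_inj ht hr hΩ hc hord hn q hm.le _ (box_comb g)
    intro a b x y h1 h2 h3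
    have := congrFun hg ⟨(a, b, x, y), hmem a b x y h1 h2 h3⟩
    simp only [Finset.sum_apply, Pi.smul_apply, Matrix.row, M1, smul_eq_mul, Pi.zero_apply] at this
    have h4 : Ω a b x y * κ a b x y ≠ 0 := by
      refine mul_ne_zero h3 (mul_ne_zero (mul_ne_zero (mul_ne_zero (mul_ne_zero (mul_ne_zero
        (wt_ne ht a) (wt_ne ht b)) (wt_ne hr x)) (wt_ne hr y)) ?_) ?_)
      · exact sub_ne_zero.mpr fun e => h1 (ht e)
      · exact sub_ne_zero.mpr fun e => h2 (hr e)
    refine (mul_eq_zero.mp (Eq.trans ?_ this)).resolve_left h4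
    rw [Finset.mul_sum]
    exact Finset.sum_congr rfl fun i _ => by ring
  have l2 : LinearIndependent ℂ M2.row := by
    rw [Fintype.linearIndependent_iff]
    intro g hg
    apply mono_indep ht hr (by omega) (by omega) (by omega) (by omega) g
    apply box_inj ht hr hΩ hc hord (by omega) p (by omega) _ (box_comb g)
    intro a b x y h1 h2 h3
    have := congrFun hg ⟨(a, b, x, y), hmem a b x y h1 h2 h3⟩
    simpa only [Finset.sum_apply, Pi.smul_apply, Matrix.row, M2, smul_eq_mul, Pi.zero_apply]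
      using this
  rw [Matrix.rank_transpose, l1.rank_matrix, l2.rank_matrix] at hrk
  simp only [Fintype.card_prod, Fintype.card_fin, Fintype.card_coe] at hrk
  have := Finset.card_filter_le R
    fun o => o.1 ≠ o.2.1 ∧ o.2.2.1 ≠ o.2.2.2 ∧ Ω o.1 o.2.1 o.2.2.1 o.2.2.2 ≠ 0
  have e : 2 * (p * q * (p' * q')) = p * (q * (p' * q')) + q * (p * (q' * p')) := by ring
  rw [e]
  exact hrk.trans this

end Vale.Agent.P040
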