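import Vale.Agent.P040.Algebra
import Mathlib.Data.Fintype.Sort
import Mathlib.Tactic.Linarith

namespace Vale.Agent.P040

open Finset

theorem route {E Seg : Type} [Fintype Seg] (first last : E → Seg)
    (hlast : Function.Injective last) (succ : Seg → Seg)
    (h1 : ∀ σ, σ ∉ Set.range last → succ σ ∉ Set.range first)
    (h2 : ∀ σ σ', σ ∉ Set.range last → σ' ∉ Set.range last → succ σ = succ σ' → σ = σ')
    (h3 : ∀ σ, σ ∉ Set.range first → ∃ σ', σ' ∉ Set.range last ∧ succ σ' = σ)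
    {O : Type} (own : Seg → O) (hown : ∀ σ, σ ∉ Set.range last → own (succ σ) = own σ) :
    ∃ (L N : E → Finset Seg) (φ : E → E), (∀ e e' σ, σ ∈ L e → σ ∈ L e' → e = e') ∧
      (∀ e σ, σ ∈ L e → own σ = own (last e)) ∧ (∀ e, first (φ e) ∈ L e) ∧
      (∀ e σ, σ ∈ N e → σ ∈ L e ∧ σ ∉ Set.range last) ∧
      ∀ e (F1 F2 : Seg → ℂ), ∑ σ ∈ L e, (F1 σ - F2 σ) =
        F1 (first (φ e)) - F2 (last e) + ∑ σ ∈ N e, (F1 (succ σ) - F2 σ) := by
  classical
  let s : Seg → Seg := fun σ => if σ ∈ Set.range last then σ else succ σ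
  have hs1 : ∀ e, s (last e) = last e := fun e => if_pos ⟨e, rfl⟩
  have hs2 : ∀ σ, σ ∉ Set.range last → s σ = succ σ := fun σ h => if_neg h
  let L : E → Finset Seg := fun e => Finset.univ.filter fun σ => ∃ k, s^[k] σ = last e
  have hL : ∀ e σ, σ ∈ L e ↔ ∃ k, s^[k] σ = last e := fun e σ => by simp [L]
  have hfix : ∀ e k, s^[k] (last e) = last e := fun e k => Function.iterate_fixed (hs1 e) k
  have huniq : ∀ e e' σ, σ ∈ L e → σ ∈ L e' → e = e' := by
    intro e e' σ h h'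
    obtain ⟨k, hk⟩ := (hL _ _).mp h
    obtain ⟨k', hk'⟩ := (hL _ _).mp h'
    apply hlast
    rw [← hfix e k', ← hfix e' k, ← hk, ← hk', ← Function.iterate_add_apply,
      ← Function.iterate_add_apply, add_comm]
  have hstep : ∀ e σ, σ ∉ Set.range last → (σ ∈ L e ↔ succ σ ∈ L e) := by
    intro e σ hσ
    rw [hL, hL, ← hs2 σ hσ]
    constructor
    · rintro ⟨k, hk⟩
      refine ⟨k, ?_⟩
      rw [← Function.iterate_succ_apply, Function.iterate_succ_apply', hk, hs1]
    · rintro ⟨k, hk⟩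
      exact ⟨k + 1, by rw [Function.iterate_succ_apply, hk]⟩
  have hlastL : ∀ e, last e ∈ L e := fun e => (hL _ _).mpr ⟨0, rfl⟩
  have hownL : ∀ e σ, σ ∈ L e → own σ = own (last e) := by
    intro e σ h
    obtain ⟨k, hk⟩ := (hL _ _).mp h
    rw [← hk]
    clear hk h
    induction k generalizing σ with
    | zero => rfl
    | succ k ih =>
      rw [Function.iterate_succ_apply, ← ih]
      by_cases hσ : σ ∈ Set.range last
      · simp only [s, if_pos hσ]
      · rw [hs2 σ hσ, hown σ hσ]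
  let N : E → Finset Seg := fun e => (L e).filter fun σ => σ ∉ Set.range last
  have hsplitL : ∀ e (F : Seg → ℂ), ∑ σ ∈ L e, F σ = F (last e) + ∑ σ ∈ N e, F σ := by
    intro e F
    rw [← Finset.sum_filter_add_sum_filter_not (L e) (fun σ => σ ∈ Set.range last)]
    congr 1
    rw [Finset.sum_eq_single_of_mem (last e) (Finset.mem_filter.mpr ⟨hlastL e, e, rfl⟩)]
    intro σ hσ hne
    obtain ⟨h4, e', rfl⟩ := Finset.mem_filter.mp hσ
    exact absurd (congrArg last (huniq _ _ _ (hlastL e') h4)) hne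
  have hbij : ∀ e (F : Seg → ℂ),
      ∑ σ ∈ N e, F (succ σ) = ∑ σ ∈ (L e).filter fun σ => σ ∉ Set.range first, F σ := by
    intro e F
    refine Finset.sum_bij (fun σ _ => succ σ) ?_ ?_ ?_ fun _ _ => rfl
    · intro σ hσ
      obtain ⟨h4, h5⟩ := Finset.mem_filter.mp hσ
      exact Finset.mem_filter.mpr ⟨(hstep e σ h5).mp h4, h1 σ h5⟩
    · intro σ hσ σ' hσ' h
      exact h2 σ σ' (Finset.mem_filter.mp hσ).2 (Finset.mem_filter.mp hσ').2 h
    · intro σ hσ
      obtain ⟨h4, h5⟩ := Finset.mem_filter.mp hσ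
      obtain ⟨σ', h6, rfl⟩ := h3 σ h5
      exact ⟨σ', Finset.mem_filter.mpr ⟨(hstep e σ' h6).mpr h4, h6⟩, rfl⟩
  have hone : ∀ e, ∃ e', ((L e).filter fun σ => σ ∈ Set.range first) = {first e'} := by
    intro e
    have h4 := hsplitL e fun _ => 1
    rw [← Finset.sum_filter_add_sum_filter_not (L e) (fun σ => σ ∈ Set.range first),
      ← hbij e fun _ => 1, add_left_inj, Finset.sum_const, nsmul_eq_mul, mul_one] at h4
    obtain ⟨σ, hσ⟩ := Finset.card_eq_one.mp (by exact_mod_cast h4)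
    have : σ ∈ (L e).filter fun σ => σ ∈ Set.range first := by rw [hσ]; simp
    obtain ⟨e', rfl⟩ := (Finset.mem_filter.mp this).2
    exact ⟨e', hσ⟩
  choose φ hφ using hone
  refine ⟨L, N, φ, huniq, hownL, fun e => ?_, fun e σ h => Finset.mem_filter.mp h, ?_⟩
  · have : first (φ e) ∈ (L e).filter fun σ => σ ∈ Set.range first := by rw [hφ]; simp
    exact (Finset.mem_filter.mp this).1
  · intro e F1 F2
    rw [Finset.sum_sub_distrib, Finset.sum_sub_distrib, hsplitL e F2, hbij e F1,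
      ← Finset.sum_filter_add_sum_filter_not (L e) (fun σ => σ ∈ Set.range first), hφ,
      Finset.sum_singleton]
    ring

/-- The local crossing index of two strands with the given angles. -/
noncomputable def lam (c : ℂ) (i1 o1 i2 o2 : ℝ) : ℂ :=
  (if o1 < o2 then c else 0) - (if o1 < i2 then c else 0) - (if i1 < o2 then c else 0) +
    (if i1 < i2 then c else 0)

theorem lam_swap (c : ℂ) {i1 o1 i2 o2 : ℝ} (h1 : i1 ≠ i2) (h2 : i1 ≠ o2) (h3 : o1 ≠ i2)
    (h4 : o1 ≠ o2) : lam c i2 o2 i1 o1 = -lam c i1 o1 i2 o2 := by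
  unfold lam
  rcases lt_or_gt_of_ne h1 with h1 | h1 <;> rcases lt_or_gt_of_ne h2 with h2 | h2 <;>
    rcases lt_or_gt_of_ne h3 with h3 | h3 <;> rcases lt_or_gt_of_ne h4 with h4 | h4 <;>
    simp only [h1, h2, h3, h4, h1.not_gt, h2.not_gt, h3.not_gt, h4.not_gt, if_true, if_false] <;>
    ring

theorem lam_uncross (c : ℂ) {i1 o1 i2 o2 : ℝ} (h1 : i1 ≠ i2) (h2 : i1 ≠ o2) (h3 : o1 ≠ i2)
    (h4 : o1 ≠ o2) (h5 : i1 ≠ o1) (h6 : i2 ≠ o2) (h : lam c i1 o1 i2 o2 ≠ 0) :
    lam c i1 o2 i2 o1 = 0 := by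
  unfold lam at h ⊢
  rcases lt_or_gt_of_ne h1 with h1 | h1 <;> rcases lt_or_gt_of_ne h2 with h2 | h2 <;>
    rcases lt_or_gt_of_ne h3 with h3 | h3 <;> rcases lt_or_gt_of_ne h4 with h4 | h4 <;>
    rcases lt_or_gt_of_ne h5 with h5 | h5 <;> rcases lt_or_gt_of_ne h6 with h6 | h6 <;>
    first
      | (exfalso; linarith)
      | (simp [h1, h2, h3, h4, h1.not_gt, h2.not_gt, h3.not_gt, h4.not_gt] at h; done)
      | simp [h1, h4, h5, h6, h1.not_gt, h4.not_gt, h5.not_gt, h6.not_gt]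

theorem exists_rank {B : Type} [Fintype B] (α : B → ℝ) (hα : Function.Injective α) :
    ∃ ρ : B ≃ Fin (Fintype.card B), ∀ x y, ρ x < ρ y ↔ α x < α y := by
  let _ : LinearOrder B := LinearOrder.lift' α hα
  let e := monoEquivOfFin B rfl
  exact ⟨e.symm.toEquiv, fun x y => e.symm.lt_iff_lt⟩

theorem cyc_of_split {A B : Type} [Fintype A] [Fintype B] (Ω : A → A → B → B → ℂ)
    (F1 : A → B → A → ℂ) (F2 : A → B → B → ℂ) (F3 : A → B → B → ℂ) (F4 : A → B → A → ℂ)
    (h : ∀ a b x y, x ≠ y → Ω a b x y = F1 a x b + F2 a x y + F3 b y x + F4 b y a) : Cyc Ω := by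
  intro Z z1 z2 z3 z4 z0
  have e : ∀ a b x y, Ω a b x y * Z a b x y = F1 a x b * Z a b x y + F2 a x y * Z a b x y +
      F3 b y x * Z a b x y + F4 b y a * Z a b x y := by
    intro a b x y
    by_cases hxy : x = y
    · rw [hxy, z0]; ring
    · rw [h a b x y hxy]; ring
  simp only [e, Finset.sum_add_distrib]
  have s1 : ∑ a, ∑ b, ∑ x, ∑ y, F1 a x b * Z a b x y = 0 := by
    simp only [← Finset.mul_sum, z4, mul_zero, Finset.sum_const_zero]
  have s2 : ∑ a, ∑ b, ∑ x, ∑ y, F2 a x y * Z a b x y = 0 := by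
    refine Finset.sum_eq_zero fun a _ => ?_
    rw [Finset.sum_comm]
    refine Finset.sum_eq_zero fun x _ => ?_
    rw [Finset.sum_comm]
    simp only [← Finset.mul_sum, z2, mul_zero, Finset.sum_const_zero]
  have s3 : ∑ a, ∑ b, ∑ x, ∑ y, F3 b y x * Z a b x y = 0 := by
    rw [Finset.sum_comm]
    refine Finset.sum_eq_zero fun b _ => ?_
    rw [Finset.sum_comm]
    refine Finset.sum_eq_zero fun x _ => ?_
    rw [Finset.sum_comm]
    simp only [← Finset.mul_sum, z1, mul_zero, Finset.sum_const_zero]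
  have s4 : ∑ a, ∑ b, ∑ x, ∑ y, F4 b y a * Z a b x y = 0 := by
    refine Finset.sum_eq_zero fun a _ => Finset.sum_eq_zero fun b _ => ?_
    rw [Finset.sum_comm]
    simp only [← Finset.mul_sum, z3, mul_zero, Finset.sum_const_zero]
  rw [s1, s2, s3, s4]
  ring

section main
variable {A B Seg : Type} [Fintype A] [Fintype B] [Fintype Seg]
  (P : A → ℂ) (Q : B → ℂ) (X : Finset ℂ) (nd : Seg → Bool → ℂ) (own : Seg → A)
  (first last : A × B → Seg) (α : Seg → Bool → ℝ) (Φ : Seg → ℂ → ℂ) (G G' : Seg → Bool → ℂ)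
  (c : ℂ)

open Classical in
/-- The local intersection contribution of two darts. -/
noncomputable def KK (σ : Seg) (β : Bool) (σ' : Seg) (β' : Bool) : ℂ :=
  if nd σ β = nd σ' β' then G σ β + G' σ' β' + (if α σ β < α σ' β' then c else 0) else 0

theorem routed_bound (hc : c ≠ 0) (hP : Function.Injective P) (hQ : Function.Injective Q)
    (hPQ : ∀ a x, P a ≠ Q x) (hlast : Function.Injective last)
    (own_first : ∀ e, own (first e) = e.1) (own_last : ∀ e, own (last e) = e.1)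
    (nd_first : ∀ e, nd (first e) false = P e.1) (nd_last : ∀ e, nd (last e) true = Q e.2)
    (succ : Seg → Seg)
    (h1 : ∀ σ, σ ∉ Set.range last → succ σ ∉ Set.range first)
    (h2 : ∀ σ σ', σ ∉ Set.range last → σ' ∉ Set.range last → succ σ = succ σ' → σ = σ')
    (h3 : ∀ σ, σ ∉ Set.range first → ∃ σ', σ' ∉ Set.range last ∧ succ σ' = σ)
    (hown : ∀ σ, σ ∉ Set.range last → own (succ σ) = own σ)
    (hnd : ∀ σ, σ ∉ Set.range last → nd (succ σ) false = nd σ true)
    (hX : ∀ σ, σ ∉ Set.range last → nd σ true ∈ X ∧ (∀ a, nd σ true ≠ P a) ∧ ∀ x, nd σ true ≠ Q x)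
    (htwo : ∀ σ σ' σ'', σ ∉ Set.range last → σ' ∉ Set.range last → σ'' ∉ Set.range last →
      σ' ≠ σ → σ'' ≠ σ → nd σ' true = nd σ true → nd σ'' true = nd σ true → σ' = σ'')
    (hα : ∀ σ σ', σ ≠ σ' → nd σ false = nd σ' false → α σ false ≠ α σ' false)
    (hun : ∀ σ σ', σ ∉ Set.range last → σ' ∉ Set.range last → σ ≠ σ' → own σ = own σ' →
      nd σ true = nd σ' true →
      lam c (α σ true) (α (succ σ) false) (α σ' true) (α (succ σ') false) = 0)
    (hII : ∀ σ σ', σ ≠ σ' →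
      Φ σ (nd σ' false) - Φ σ (nd σ' true) + Φ σ' (nd σ true) - Φ σ' (nd σ false) =
        (KK nd α G G' c σ false σ' false - KK nd α G G' c σ false σ' true) -
        (KK nd α G G' c σ true σ' false - KK nd α G G' c σ true σ' true))
    {p q p' q' : ℕ} (hm : p + q + 1 = Fintype.card A) (hn : p' + q' + 1 = Fintype.card B) :
    p * q * (p' * q') ≤ X.card := by
  classical
  obtain ⟨L, N, φ, huniq, hownL, hφ, hN, hsum⟩ := route first last hlast succ h1 h2 h3 own hown
  have hφ1 : ∀ e, (φ e).1 = e.1 := fun e => by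
    rw [← own_first, hownL e _ (hφ e), own_last]
  have hcons : ∀ e (F : ℂ → ℂ), ∑ σ ∈ L e, (F (nd σ false) - F (nd σ true)) =
      F (P e.1) - F (Q e.2) := by
    intro e F
    rw [hsum e (fun σ => F (nd σ false)) (fun σ => F (nd σ true)), nd_first, nd_last, hφ1,
      Finset.sum_eq_zero, add_zero]
    intro σ hσ
    rw [hnd σ (hN e σ hσ).2, sub_self]
  set K := KK nd α G G' c with hK
  have hK0 : ∀ σ β σ' β', nd σ β ≠ nd σ' β' → K σ β σ' β' = 0 := fun σ β σ' β' h => if_neg h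
  let Ω0 : A × B → A × B → ℂ := fun e f => ∑ σ ∈ L e, ∑ σ' ∈ L f,
    ((K σ false σ' false - K σ false σ' true) - (K σ true σ' false - K σ true σ' true))
  have hΩ1 : ∀ e f, e ≠ f → Ω0 e f =
      (∑ σ ∈ L e, Φ σ (P f.1)) - (∑ σ ∈ L e, Φ σ (Q f.2)) + (∑ σ ∈ L f, Φ σ (Q e.2)) -
        ∑ σ ∈ L f, Φ σ (P e.1) := by
    intro e f hef
    have e1 : Ω0 e f = ∑ σ ∈ L e, ∑ σ' ∈ L f, ((Φ σ (nd σ' false) - Φ σ (nd σ' true)) -
        (Φ σ' (nd σ false) - Φ σ' (nd σ true))) := by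
      refine Finset.sum_congr rfl fun σ hσ => Finset.sum_congr rfl fun σ' hσ' => ?_
      rw [← hII σ σ' fun h => hef (huniq _ _ _ hσ (h ▸ hσ'))]
      ring
    rw [e1]
    have e2 : ∀ σ, ∑ σ' ∈ L f, ((Φ σ (nd σ' false) - Φ σ (nd σ' true)) -
        (Φ σ' (nd σ false) - Φ σ' (nd σ true))) = (Φ σ (P f.1) - Φ σ (Q f.2)) -
        ∑ σ' ∈ L f, (Φ σ' (nd σ false) - Φ σ' (nd σ true)) := by
      intro σ
      rw [← hcons f (Φ σ), ← Finset.sum_sub_distrib]
    have e3 : ∑ σ ∈ L e, ∑ σ' ∈ L f, (Φ σ' (nd σ false) - Φ σ' (nd σ true)) =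
        ∑ σ' ∈ L f, (Φ σ' (P e.1) - Φ σ' (Q e.2)) := by
      rw [Finset.sum_comm]
      exact Finset.sum_congr rfl fun σ' _ => hcons e (Φ σ')
    rw [Finset.sum_congr rfl fun σ _ => e2 σ, Finset.sum_sub_distrib, e3,
      Finset.sum_sub_distrib, Finset.sum_sub_distrib]
    ring
  have hΩ2 : ∀ e f, e.2 ≠ f.2 → Ω0 e f = K (first (φ e)) false (first (φ f)) false +
      ∑ σ ∈ N e, ∑ σ' ∈ N f, if nd σ true = nd σ' true then
        lam c (α σ true) (α (succ σ) false) (α σ' true) (α (succ σ') false) else 0 := by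
    intro e f hef
    have hY : ∀ σ β, ∑ σ' ∈ L f, (K σ β σ' false - K σ β σ' true) =
        K σ β (first (φ f)) false - K σ β (last f) true +
          ∑ σ' ∈ N f, (K σ β (succ σ') false - K σ β σ' true) :=
      fun σ β => hsum f (fun σ' => K σ β σ' false) (fun σ' => K σ β σ' true)
    have e1 : Ω0 e f = ∑ σ ∈ L e, ((∑ σ' ∈ L f, (K σ false σ' false - K σ false σ' true)) -
        ∑ σ' ∈ L f, (K σ true σ' false - K σ true σ' true)) := by
      refine Finset.sum_congr rfl fun σ _ => ?_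
      rw [← Finset.sum_sub_distrib]
    rw [e1, hsum e (fun σ => ∑ σ' ∈ L f, (K σ false σ' false - K σ false σ' true))
      (fun σ => ∑ σ' ∈ L f, (K σ true σ' false - K σ true σ' true))]
    simp only [hY]
    have z1 : K (first (φ e)) false (last f) true = 0 :=
      hK0 _ _ _ _ (by rw [nd_first, nd_last]; exact hPQ _ _)
    have z2 : ∑ σ' ∈ N f, (K (first (φ e)) false (succ σ') false -
        K (first (φ e)) false σ' true) = 0 := by
      refine Finset.sum_eq_zero fun σ' hσ' => ?_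
      have h4 := (hN f σ' hσ').2
      rw [hK0, hK0, sub_self]
      · rw [nd_first]; exact ((hX σ' h4).2.1 _).symm
      · rw [nd_first, hnd σ' h4]; exact ((hX σ' h4).2.1 _).symm
    have z3 : K (last e) true (first (φ f)) false = 0 :=
      hK0 _ _ _ _ (by rw [nd_first, nd_last]; exact (hPQ _ _).symm)
    have z4 : K (last e) true (last f) true = 0 :=
      hK0 _ _ _ _ (by rw [nd_last, nd_last]; exact fun h => hef (hQ h))
    have z5 : ∑ σ' ∈ N f, (K (last e) true (succ σ') false - K (last e) true σ' true) = 0 := by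
      refine Finset.sum_eq_zero fun σ' hσ' => ?_
      have h4 := (hN f σ' hσ').2
      rw [hK0, hK0, sub_self]
      · rw [nd_last]; exact ((hX σ' h4).2.2 _).symm
      · rw [nd_last, hnd σ' h4]; exact ((hX σ' h4).2.2 _).symm
    rw [z1, z2, z3, z4, z5]
    simp only [sub_zero, add_zero, sub_self]
    congr 1
    refine Finset.sum_congr rfl fun σ hσ => ?_
    have h4 := (hN e σ hσ).2
    rw [hK0 (succ σ) false (first _) false (by rw [nd_first, hnd σ h4]; exact (hX σ h4).2.1 _),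
      hK0 (succ σ) false (last _) true (by rw [nd_last, hnd σ h4]; exact (hX σ h4).2.2 _),
      hK0 σ true (first _) false (by rw [nd_first]; exact (hX σ h4).2.1 _),
      hK0 σ true (last _) true (by rw [nd_last]; exact (hX σ h4).2.2 _)]
    simp only [sub_self, zero_add]
    rw [← Finset.sum_sub_distrib]
    refine Finset.sum_congr rfl fun σ' hσ' => ?_
    have h5 := (hN f σ' hσ').2
    simp only [hK, KK, hnd σ h4, hnd σ' h5, lam]
    by_cases h6 : nd σ true = nd σ' true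
    · simp only [if_pos h6]
      ring
    · simp only [if_neg h6]
      ring
  let Ω : A → A → B → B → ℂ := fun a b x y => Ω0 (a, x) (b, y) -
    (if a = b then G (first (φ (a, x))) false else 0) -
    (if a = b then G' (first (φ (b, y))) false else 0)
  have hcyc : Cyc Ω := by
    refine cyc_of_split Ω
      (fun a x b => (∑ σ ∈ L (a, x), Φ σ (P b)) - if a = b then G (first (φ (a, x))) false else 0)
      (fun a x y => -∑ σ ∈ L (a, x), Φ σ (Q y)) (fun b y x => ∑ σ ∈ L (b, y), Φ σ (Q x))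
      (fun b y a => -(∑ σ ∈ L (b, y), Φ σ (P a)) -
        if a = b then G' (first (φ (b, y))) false else 0) ?_
    intro a b x y hxy
    simp only [Ω]
    rw [hΩ1 _ _ fun h => hxy (congrArg Prod.snd h)]
    ring
  let NL := Finset.univ.filter fun σ => σ ∉ Set.range last
  let Prs := (NL ×ˢ NL).filter fun z => z.1 ≠ z.2 ∧ nd z.1 true = nd z.2 true
  obtain ⟨x0⟩ : Nonempty B := Fintype.card_pos_iff.mp (by omega)
  let lab : Seg → A × B := fun σ => if h : ∃ e, σ ∈ L e then h.choose else (own σ, x0)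
  have hlab : ∀ e σ, σ ∈ L e → lab σ = e := by
    intro e σ h
    have h' : ∃ e, σ ∈ L e := ⟨e, h⟩
    simp only [lab, dif_pos h']
    exact huniq _ _ _ h'.choose_spec h
  have hmain := algebra_bound hP hQ hcyc hc ?_ hm hn
    (Prs.image fun z => ((lab z.1).1, (lab z.2).1, (lab z.1).2, (lab z.2).2)) ?_
  · have c1 : Prs.card ≤ NL.card := by
      apply Finset.card_le_card_of_injOn Prod.fst
      · intro z hz
        exact (Finset.mem_product.mp (Finset.mem_filter.mp hz).1).1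
      · intro z hz z' hz' e
        obtain ⟨u1, u2, u3⟩ := Finset.mem_filter.mp hz
        obtain ⟨v1, v2, v3⟩ := Finset.mem_filter.mp hz'
        obtain ⟨u0, u1⟩ := Finset.mem_product.mp u1
        obtain ⟨v0, v1⟩ := Finset.mem_product.mp v1
        refine Prod.ext e (htwo z.1 _ _ (Finset.mem_filter.mp u0).2 (Finset.mem_filter.mp u1).2
          (Finset.mem_filter.mp v1).2 u2.symm (e ▸ v2.symm) u3.symm (e ▸ v3.symm))
    have c2 : NL.card ≤ 2 * X.card := by
      apply Finset.card_le_mul_card_image_of_maps_to (f := fun σ => nd σ true)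
      · intro σ hσ
        exact (hX σ (Finset.mem_filter.mp hσ).2).1
      · intro z _
        by_contra hcon
        obtain ⟨σ, σ', σ'', u, u', u'', n1, n2, n3⟩ := Finset.two_lt_card_iff.mp (not_le.mp hcon)
        obtain ⟨u1, u2⟩ := Finset.mem_filter.mp u
        obtain ⟨v1, v2⟩ := Finset.mem_filter.mp u'
        obtain ⟨w1, w2⟩ := Finset.mem_filter.mp u''
        exact n3 (htwo σ σ' σ'' (Finset.mem_filter.mp u1).2 (Finset.mem_filter.mp v1).2
          (Finset.mem_filter.mp w1).2 n1.symm n2.symm (v2.trans u2.symm) (w2.trans u2.symm))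
    have c3 := Finset.card_image_le (s := Prs)
      (f := fun z => ((lab z.1).1, (lab z.2).1, (lab z.1).2, (lab z.2).2))
    omega
  · intro a
    have hne : ∀ x y, x ≠ y → first (φ (a, x)) ≠ first (φ (a, y)) := by
      intro x y hxy h
      exact hxy (congrArg Prod.snd (huniq _ _ _ (hφ (a, x)) (h ▸ hφ (a, y))))
    have hnde : ∀ x y, nd (first (φ (a, x))) false = nd (first (φ (a, y))) false := by
      intro x y
      rw [nd_first, nd_first, hφ1, hφ1]
    obtain ⟨ρ, hρ⟩ := exists_rank (fun x => α (first (φ (a, x))) false) (by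
      intro x y h
      by_contra hxy
      exact hα _ _ (hne x y hxy) (hnde x y) h)
    refine ⟨ρ, fun x y hxy => ?_⟩
    simp only [Ω, if_true]
    rw [hΩ2 _ _ hxy, Finset.sum_eq_zero]
    · simp only [hK, KK, if_pos (hnde x y), hρ]
      ring
    · intro σ hσ
      refine Finset.sum_eq_zero fun σ' hσ' => ?_
      split_ifs with h
      · refine hun σ σ' (hN _ _ hσ).2 (hN _ _ hσ').2 ?_ ?_ h
        · intro h'
          exact hxy (congrArg Prod.snd (huniq _ _ _ (hN _ _ hσ).1 (h' ▸ (hN _ _ hσ').1)))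
        · rw [hownL _ _ (hN _ _ hσ).1, hownL _ _ (hN _ _ hσ').1, own_last, own_last]
      · rfl
  · intro a b x y hab hxy hO
    simp only [Ω, if_neg hab, sub_zero] at hO
    rw [hΩ2 _ _ hxy, hK0 _ _ _ _ (by
      rw [nd_first, nd_first, hφ1, hφ1]; exact fun h => hab (hP h)), zero_add] at hO
    obtain ⟨σ, hσ, hO⟩ := Finset.exists_ne_zero_of_sum_ne_zero hO
    obtain ⟨σ', hσ', hO⟩ := Finset.exists_ne_zero_of_sum_ne_zero hO
    have h4 : nd σ true = nd σ' true := by
      by_contra h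
      exact hO (if_neg h)
    refine Finset.mem_image.mpr ⟨(σ, σ'), Finset.mem_filter.mpr ⟨Finset.mem_product.mpr
      ⟨Finset.mem_filter.mpr ⟨Finset.mem_univ _, (hN _ _ hσ).2⟩,
        Finset.mem_filter.mpr ⟨Finset.mem_univ _, (hN _ _ hσ').2⟩⟩, ?_, h4⟩, ?_⟩
    · intro h'
      have h'' : σ = σ' := h'
      exact hxy (congrArg Prod.snd (huniq _ _ _ (hN _ _ hσ).1 (h'' ▸ (hN _ _ hσ').1)))
    · simp only [hlab _ _ (hN _ _ hσ).1, hlab _ _ (hN _ _ hσ').1]

theorem comb_bound (hc : c ≠ 0) (hP : Function.Injective P) (hQ : Function.Injective Q)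
    (hPQ : ∀ a x, P a ≠ Q x) (hlast : Function.Injective last)
    (own_first : ∀ e, own (first e) = e.1) (own_last : ∀ e, own (last e) = e.1)
    (nd_first : ∀ e, nd (first e) false = P e.1) (nd_last : ∀ e, nd (last e) true = Q e.2)
    (o : Seg → Seg)
    (h1 : ∀ σ, σ ∉ Set.range last → o σ ∉ Set.range first)
    (h2 : ∀ σ σ', σ ∉ Set.range last → σ' ∉ Set.range last → o σ = o σ' → σ = σ')
    (h3 : ∀ σ, σ ∉ Set.range first → ∃ σ', σ' ∉ Set.range last ∧ o σ' = σ)
    (hown : ∀ σ, σ ∉ Set.range last → own (o σ) = own σ)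
    (hnd : ∀ σ, σ ∉ Set.range last → nd (o σ) false = nd σ true)
    (hX : ∀ σ, σ ∉ Set.range last → nd σ true ∈ X ∧ (∀ a, nd σ true ≠ P a) ∧ ∀ x, nd σ true ≠ Q x)
    (htwo : ∀ σ σ' σ'', σ ∉ Set.range last → σ' ∉ Set.range last → σ'' ∉ Set.range last →
      σ' ≠ σ → σ'' ≠ σ → nd σ' true = nd σ true → nd σ'' true = nd σ true → σ' = σ'')
    (hα : ∀ σ β σ' β', (σ, β) ≠ (σ', β') → nd σ β = nd σ' β' → α σ β ≠ α σ' β')
    (hII : ∀ σ σ', σ ≠ σ' →
      Φ σ (nd σ' false) - Φ σ (nd σ' true) + Φ σ' (nd σ true) - Φ σ' (nd σ false) =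
        (KK nd α G G' c σ false σ' false - KK nd α G G' c σ false σ' true) -
        (KK nd α G G' c σ true σ' false - KK nd α G G' c σ true σ' true))
    {p q p' q' : ℕ} (hm : p + q + 1 = Fintype.card A) (hn : p' + q' + 1 = Fintype.card B) :
    p * q * (p' * q') ≤ X.card := by
  classical
  let Sw : Seg → Seg → Prop := fun σ σ' => σ ∉ Set.range last ∧ σ' ∉ Set.range last ∧ σ' ≠ σ ∧
    nd σ' true = nd σ true ∧ own σ' = own σ ∧
    lam c (α σ true) (α (o σ) false) (α σ' true) (α (o σ') false) ≠ 0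
  have hdist : ∀ σ σ', σ ∉ Set.range last → σ' ∉ Set.range last → σ' ≠ σ →
      nd σ' true = nd σ true → α σ true ≠ α σ' true ∧ α σ true ≠ α (o σ') false ∧
        α (o σ) false ≠ α σ' true ∧ α (o σ) false ≠ α (o σ') false ∧
        α σ true ≠ α (o σ) false ∧ α σ' true ≠ α (o σ') false := by
    intro σ σ' u u' hne hn
    refine ⟨hα _ _ _ _ (by simpa using hne.symm) hn.symm,
      hα _ _ _ _ (by simp) (by rw [hnd σ' u', hn]),
      hα _ _ _ _ (by simp) (by rw [hnd σ u, hn]),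
      hα _ _ _ _ (by simpa using fun h => hne (h2 _ _ u u' h).symm)
        (by rw [hnd σ u, hnd σ' u', hn]),
      hα _ _ _ _ (by simp) (by rw [hnd σ u]), hα _ _ _ _ (by simp) (by rw [hnd σ' u'])⟩
  have hsym : ∀ σ σ', Sw σ σ' → Sw σ' σ := by
    rintro σ σ' ⟨u, u', hne, hn, ho, hl⟩
    obtain ⟨d1, d2, d3, d4, -, -⟩ := hdist σ σ' u u' hne hn
    refine ⟨u', u, hne.symm, hn.symm, ho.symm, ?_⟩
    rw [lam_swap c d1 d2 d3 d4]
    exact neg_ne_zero.mpr hl
  have huq : ∀ σ σ' σ'', Sw σ σ' → Sw σ σ'' → σ' = σ'' := by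
    rintro σ σ' σ'' ⟨u, u', hne, hn, -, -⟩ ⟨-, u'', hne', hn', -, -⟩
    exact htwo σ σ' σ'' u u' u'' hne hne' hn hn'
  let π : Seg → Seg := fun σ => if h : ∃ σ', Sw σ σ' then h.choose else σ
  have hπ1 : ∀ σ σ', Sw σ σ' → π σ = σ' := by
    intro σ σ' h
    have h' : ∃ σ', Sw σ σ' := ⟨σ', h⟩
    simp only [π, dif_pos h']
    exact huq _ _ _ h'.choose_spec h
  have hπ2 : ∀ σ, (¬ ∃ σ', Sw σ σ') → π σ = σ := fun σ h => dif_neg h
  have hπ : ∀ σ, σ ∉ Set.range last → π σ ∉ Set.range last ∧ π (π σ) = σ ∧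
      nd (π σ) true = nd σ true ∧ own (π σ) = own σ := by
    intro σ u
    by_cases h : ∃ σ', Sw σ σ'
    · obtain ⟨σ', h⟩ := h
      rw [hπ1 σ σ' h, hπ1 σ' σ (hsym _ _ h)]
      exact ⟨h.2.1, rfl, h.2.2.2.1, h.2.2.2.2.1⟩
    · rw [hπ2 σ h, hπ2 σ h]
      exact ⟨u, rfl, rfl, rfl⟩
  refine routed_bound P Q X nd own first last α Φ G G' c hc hP hQ hPQ hlast own_first own_last
    nd_first nd_last (fun σ => o (π σ)) (fun σ u => h1 _ (hπ σ u).1) ?_ ?_
    (fun σ u => by rw [hown _ (hπ σ u).1, (hπ σ u).2.2.2])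
    (fun σ u => by rw [hnd _ (hπ σ u).1, (hπ σ u).2.2.1]) hX htwo
    (fun σ σ' h => hα _ _ _ _ (by simpa using h)) ?_ hII hm hn
  · intro σ σ' u u' h
    have := h2 _ _ (hπ σ u).1 (hπ σ' u').1 h
    rw [← (hπ σ u).2.1, this, (hπ σ' u').2.1]
  · intro σ u
    obtain ⟨σ', u', rfl⟩ := h3 σ u
    exact ⟨π σ', (hπ σ' u').1, by simp only [(hπ σ' u').2.1]⟩
  · intro σ σ' u u' hne ho hn
    by_cases h : Sw σ σ'
    · simp only [hπ1 σ σ' h, hπ1 σ' σ (hsym _ _ h)]
      obtain ⟨d1, d2, d3, d4, d5, d6⟩ := hdist σ σ' u u' hne.symm hn.symm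
      exact lam_uncross c d1 d2 d3 d4 d5 d6 h.2.2.2.2.2
    · have g1 : π σ = σ := hπ2 σ (by
        rintro ⟨σ'', h''⟩
        exact h (htwo σ σ'' σ' u h''.2.1 u' h''.2.2.1 hne.symm h''.2.2.2.1 hn.symm ▸ h''))
      have g2 : π σ' = σ' := hπ2 σ' (by
        rintro ⟨σ'', h''⟩
        exact h (hsym _ _ (htwo σ' σ'' σ u' h''.2.1 u h''.2.2.1 hne h''.2.2.2.1 hn ▸ h'')))
      simp only [g1, g2]
      by_contra hl
      exact h ⟨u, u', hne.symm, hn.symm, ho.symm, hl⟩

end main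

end Vale.Agent.P040
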