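import Mathlib

/-!
Drawings of finite simple graphs in the plane and the crossing number.
The plane `ℝ²` is modelled by `ℂ` (with its usual topology; `z = x + i y`).
-/

namespace Vale.Agent.P040

open Set

/-- The interior of an arc `γ : [0,1] → ℂ`: the image of the open parameter interval. -/
def arcInterior (γ : unitInterval → ℂ) : Set ℂ := γ '' {t | t ≠ 0 ∧ t ≠ 1}

/-- The arcs `γ` and `δ` cross properly (transversally) at `p`: a homeomorphism `φ` between an open
neighbourhood of `p` and an open subset of the plane, with `φ p = 0`, carries the part of `γ` in the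
neighbourhood to the horizontal axis and the part of `δ` to the vertical axis. -/
def ProperCrossingAt (γ δ : unitInterval → ℂ) (p : ℂ) : Prop :=
  ∃ φ : OpenPartialHomeomorph ℂ ℂ, p ∈ φ.source ∧ φ p = 0 ∧
    (∀ z ∈ φ.source, z ∈ range γ ↔ (φ z).im = 0) ∧ (∀ z ∈ φ.source, z ∈ range δ ↔ (φ z).re = 0)

/-- A drawing of the simple graph `G` in the plane. -/
structure Drawing {V : Type} (G : SimpleGraph V) where
  /-- positions of the vertices -/
  pos : V → ℂ
  /-- the vertices are placed at distinct points -/
  pos_inj : Function.Injective pos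
  /-- the arc representing an edge -/
  arc : G.edgeSet → unitInterval → ℂ
  arc_cont : ∀ e, Continuous (arc e)
  /-- arcs are simple -/
  arc_inj : ∀ e, Function.Injective (arc e)
  /-- the arc of `e` joins the positions of the two endpoints of `e` -/
  arc_ends : ∀ e : G.edgeSet, s(arc e 0, arc e 1) = (e : Sym2 V).map pos
  /-- arc interiors avoid all vertices -/
  avoid : ∀ e v, pos v ∉ arcInterior (arc e)
  /-- edge interiors meet in finitely many points -/
  finite_meet : {p | ∃ e f, e ≠ f ∧ p ∈ arcInterior (arc e) ∧ p ∈ arcInterior (arc f)}.Finite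
  /-- each meeting point lies on exactly two edges -/
  two : ∀ e f g p, e ≠ f → p ∈ arcInterior (arc e) → p ∈ arcInterior (arc f) →
    p ∈ arcInterior (arc g) → g = e ∨ g = f
  /-- each meeting point is a proper crossing -/
  proper : ∀ e f p, e ≠ f → p ∈ arcInterior (arc e) → p ∈ arcInterior (arc f) →
    ProperCrossingAt (arc e) (arc f) p

/-- The set of crossing points of a drawing. -/
def Drawing.crossings {V : Type} {G : SimpleGraph V} (D : Drawing G) : Set ℂ :=
  {p | ∃ e f, e ≠ f ∧ p ∈ arcInterior (D.arc e) ∧ p ∈ arcInterior (D.arc f)}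

/-- `c(D)`: the number of crossing points of `D` (a finite set by `D.finite_meet`). -/
noncomputable def Drawing.c {V : Type} {G : SimpleGraph V} (D : Drawing G) : ℕ :=
  D.crossings.ncard

/-- The crossing number `cr(G) = min_D c(D)`. -/
noncomputable def crossingNumber {V : Type} (G : SimpleGraph V) : ℕ :=
  sInf (range fun D : Drawing G => D.c)

/-- `d_r = ⌊r/2⌋ ⌊(r-1)/2⌋`. -/
def d (r : ℕ) : ℕ := r / 2 * ((r - 1) / 2)

end Vale.Agent.P040
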