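import Mathlib

/-!
Pure geometry of the straight-line Zarankiewicz drawing.  The vertices of the first class are
` (1 / uu i, 0)`, those of the second class ` (0, 1 / vv L j)`; the edge ` (i, j)` is the part of the
line `uu i * x + vv L j * y = 1` inside the open quadrant `0 < uu i * x`, `0 < vv L j * y`.
-/

namespace Vale.Agent.P040

/-- reciprocal abscissa of the `i`-th vertex of the first class -/
noncomputable def uu (i : ℕ) : ℝ := (-1) ^ i * ((i : ℝ) + 1)

/-- reciprocal ordinate of the `j`-th vertex of the second class -/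
noncomputable def vv (L : ℝ) (j : ℕ) : ℝ := (-1) ^ j * L ^ j

lemma abs_uu (i : ℕ) : |uu i| = (i : ℝ) + 1 := by
  unfold uu
  rw [abs_mul, abs_pow, abs_neg, abs_one, one_pow, one_mul, abs_of_pos (by positivity)]

lemma abs_vv {L : ℝ} (hL : 0 < L) (j : ℕ) : |vv L j| = L ^ j := by
  unfold vv
  rw [abs_mul, abs_pow, abs_neg, abs_one, one_pow, one_mul, abs_of_pos (by positivity)]

lemma uu_ne (i : ℕ) : uu i ≠ 0 := by
  intro h
  have := abs_uu i
  rw [h, abs_zero] at this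
  have : (0 : ℝ) < (i : ℝ) + 1 := by positivity
  linarith

lemma vv_ne {L : ℝ} (hL : 0 < L) (j : ℕ) : vv L j ≠ 0 := by
  intro h
  have := abs_vv hL j
  rw [h, abs_zero] at this
  have : (0 : ℝ) < L ^ j := by positivity
  linarith

lemma uu_inj : Function.Injective uu := by
  intro i i' h
  have h1 := abs_uu i
  rw [h, abs_uu] at h1
  exact_mod_cast (by linarith : (i : ℝ) = i')

lemma vv_inj {L : ℝ} (hL : 1 < L) : Function.Injective (vv L) := by
  intro j j' h
  have h1 := abs_vv (by linarith : 0 < L) j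
  rw [h, abs_vv (by linarith)] at h1
  exact (pow_right_injective₀ (by linarith) hL.ne' h1).symm

lemma uu_mul {i : ℕ} {x : ℝ} (h : 0 < uu i * x) : uu i * x = ((i : ℝ) + 1) * |x| := by
  rw [← abs_of_pos h, abs_mul, abs_uu]

lemma vv_mul {L : ℝ} (hL : 0 < L) {j : ℕ} {y : ℝ} (h : 0 < vv L j * y) :
    vv L j * y = L ^ j * |y| := by
  rw [← abs_of_pos h, abs_mul, abs_vv hL]

lemma neg_one_pow_pos_iff (i i' : ℕ) (a b x : ℝ) (ha : 0 < a) (hb : 0 < b)
    (h : 0 < (-1) ^ i * a * x) (h' : 0 < (-1) ^ i' * b * x) : i % 2 = i' % 2 := by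
  rcases Nat.even_or_odd i with hi | hi <;> rcases Nat.even_or_odd i' with hi' | hi'
  · rw [Nat.even_iff.mp hi, Nat.even_iff.mp hi']
  · rw [hi.neg_one_pow] at h
    rw [hi'.neg_one_pow] at h'
    have h1 : 0 < x := by
      by_contra hx
      nlinarith
    nlinarith
  · rw [hi.neg_one_pow] at h
    rw [hi'.neg_one_pow] at h'
    have h1 : 0 < x := by
      by_contra hx
      nlinarith
    nlinarith
  · rw [Nat.odd_iff.mp hi, Nat.odd_iff.mp hi']

/-- the point ` (x, y)` lies on the open edge ` (i, j)` -/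
def OnEdge (L : ℝ) (i j : ℕ) (x y : ℝ) : Prop :=
  0 < uu i * x ∧ 0 < vv L j * y ∧ uu i * x + vv L j * y = 1

lemma OnEdge.norm {L : ℝ} (hL : 0 < L) {i j : ℕ} {x y : ℝ} (h : OnEdge L i j x y) :
    0 < |x| ∧ 0 < |y| ∧ ((i : ℝ) + 1) * |x| + L ^ j * |y| = 1 := by
  obtain ⟨h1, h2, h3⟩ := h
  refine ⟨?_, ?_, ?_⟩
  · rw [abs_pos]
    rintro rfl
    simp at h1
  · rw [abs_pos]
    rintro rfl
    simp at h2
  · rw [← uu_mul h1, ← vv_mul hL h2, h3]

/-- two different edges through one point: same quadrant and opposite orders -/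
lemma OnEdge.cases {L : ℝ} (hL : 1 < L) {i j i' j' : ℕ} {x y : ℝ} (h : OnEdge L i j x y)
    (h' : OnEdge L i' j' x y) (hne : (i, j) ≠ (i', j')) :
    i % 2 = i' % 2 ∧ j % 2 = j' % 2 ∧ ((i < i' ∧ j' < j) ∨ (i' < i ∧ j < j')) := by
  have hL0 : 0 < L := by linarith
  refine ⟨?_, ?_, ?_⟩
  · exact neg_one_pow_pos_iff i i' _ _ x (by positivity) (by positivity) h.1 h'.1
  · exact neg_one_pow_pos_iff j j' _ _ y (by positivity) (by positivity) h.2.1 h'.2.1
  obtain ⟨hx, hy, e⟩ := h.norm hL0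
  obtain ⟨-, -, e'⟩ := h'.norm hL0
  have key : ((i : ℝ) - i') * |x| = (L ^ j' - L ^ j) * |y| := by linarith
  rcases lt_trichotomy i i' with hi | hi | hi
  · left
    refine ⟨hi, ?_⟩
    have h1 : (i : ℝ) < i' := by exact_mod_cast hi
    have h2 : L ^ j' < L ^ j := by
      by_contra h3
      push Not at h3
      nlinarith [mul_nonneg (sub_nonneg.mpr h3) hy.le]
    exact (pow_lt_pow_iff_right₀ hL).mp h2
  · subst hi
    have h2 : L ^ j' = L ^ j := by
      have : (L ^ j' - L ^ j) * |y| = 0 := by rw [← key]; ring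
      rcases mul_eq_zero.mp this with h3 | h3
      · linarith
      · linarith
    have := pow_right_injective₀ hL0 hL.ne' h2
    subst this
    exact absurd rfl hne
  · right
    refine ⟨hi, ?_⟩
    have h1 : (i' : ℝ) < i := by exact_mod_cast hi
    have h2 : L ^ j < L ^ j' := by
      by_contra h3
      push Not at h3
      nlinarith [mul_nonneg (sub_nonneg.mpr h3) hy.le]
    exact (pow_lt_pow_iff_right₀ hL).mp h2

lemma three_aux {m : ℕ} {L : ℝ} (hL : (m : ℝ) + 1 ≤ L) {i₁ j₁ i₂ j₂ i₃ j₃ : ℕ} {x y : ℝ}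
    (h₁ : OnEdge L i₁ j₁ x y) (h₂ : OnEdge L i₂ j₂ x y) (h₃ : OnEdge L i₃ j₃ x y)
    (hi₁ : i₁ < m) (a : i₂ < i₁) (b : i₃ < i₂) (c : j₁ < j₂) (d : j₂ < j₃) : False := by
  have hm : (1 : ℝ) ≤ m := by exact_mod_cast (by omega : 1 ≤ m)
  have hL1 : 1 < L := by linarith
  have hL0 : 0 < L := by linarith
  obtain ⟨hx, hy, e₁⟩ := h₁.norm hL0
  obtain ⟨-, -, e₂⟩ := h₂.norm hL0
  obtain ⟨-, -, e₃⟩ := h₃.norm hL0
  have k₁ : ((i₁ : ℝ) - i₂) * |x| = (L ^ j₂ - L ^ j₁) * |y| := by linarith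
  have k₂ : ((i₂ : ℝ) - i₃) * |x| = (L ^ j₃ - L ^ j₂) * |y| := by linarith
  have a' : (i₂ : ℝ) + 1 ≤ i₁ := by exact_mod_cast a
  have b' : (i₂ : ℝ) - i₃ ≤ m - 1 := by
    have h1 : (i₂ : ℝ) + 1 ≤ m := by exact_mod_cast (by omega : i₂ + 1 ≤ m)
    have h2 : (0 : ℝ) ≤ i₃ := by positivity
    linarith
  have p₁ : 0 < L ^ j₁ := by positivity
  have p₂ : 0 < L ^ j₂ := by positivity
  have p₃ : L * L ^ j₂ ≤ L ^ j₃ := by
    rw [← pow_succ']
    exact pow_le_pow_right₀ hL1.le d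
  -- `|x| ≤ (L^j₂ - L^j₁)|y| < L^j₂ |y|` and ` (m-1)|x| ≥ (L-1) L^j₂ |y| ≥ m L^j₂ |y|`
  have q₁ : |x| < L ^ j₂ * |y| := by nlinarith [mul_pos p₁ hy]
  have q₂ : (m : ℝ) * (L ^ j₂ * |y|) ≤ (m - 1) * |x| := by
    have h1 : ((i₂ : ℝ) - i₃) * |x| ≤ (m - 1) * |x| := mul_le_mul_of_nonneg_right b' hx.le
    have h2 : (m : ℝ) * L ^ j₂ ≤ L ^ j₃ - L ^ j₂ := by nlinarith
    have h3 : (m : ℝ) * L ^ j₂ * |y| ≤ (L ^ j₃ - L ^ j₂) * |y| :=
      mul_le_mul_of_nonneg_right h2 hy.le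
    nlinarith
  nlinarith [mul_pos p₂ hy]

/-- no three edges through one point -/
lemma OnEdge.three {m : ℕ} {L : ℝ} (hL : (m : ℝ) + 1 ≤ L) {i₁ j₁ i₂ j₂ i₃ j₃ : ℕ} {x y : ℝ}
    (h₁ : OnEdge L i₁ j₁ x y) (h₂ : OnEdge L i₂ j₂ x y) (h₃ : OnEdge L i₃ j₃ x y)
    (hi₁ : i₁ < m) (hi₂ : i₂ < m) (hi₃ : i₃ < m) (hne : (i₁, j₁) ≠ (i₂, j₂)) :
    (i₃, j₃) = (i₁, j₁) ∨ (i₃, j₃) = (i₂, j₂) := by
  have hm : (1 : ℝ) ≤ m := by exact_mod_cast (by omega : 1 ≤ m)
  have hL1 : 1 < L := by linarith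
  by_contra hcon
  push Not at hcon
  obtain ⟨-, -, c₁⟩ := h₁.cases hL1 h₂ hne
  obtain ⟨-, -, c₂⟩ := h₃.cases hL1 h₁ hcon.1
  obtain ⟨-, -, c₃⟩ := h₃.cases hL1 h₂ hcon.2
  rcases c₁ with c₁ | c₁ <;> rcases c₂ with c₂ | c₂ <;> rcases c₃ with c₃ | c₃
  · exact three_aux hL h₂ h₁ h₃ hi₂ c₁.1 c₂.1 c₁.2 c₂.2
  · omega
  · exact three_aux hL h₂ h₃ h₁ hi₂ c₃.1 c₂.1 c₃.2 c₂.2
  · exact three_aux hL h₃ h₂ h₁ hi₃ c₃.1 c₁.1 c₃.2 c₁.2
  · exact three_aux hL h₁ h₂ h₃ hi₁ c₁.1 c₃.1 c₁.2 c₃.2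
  · exact three_aux hL h₁ h₃ h₂ hi₁ c₂.1 c₃.1 c₂.2 c₃.2
  · omega
  · exact three_aux hL h₃ h₁ h₂ hi₃ c₂.1 c₁.1 c₂.2 c₁.2

lemma OnEdge.det_ne {L : ℝ} (hL : 1 < L) {i j i' j' : ℕ} {x y : ℝ} (h : OnEdge L i j x y)
    (h' : OnEdge L i' j' x y) (hne : (i, j) ≠ (i', j')) :
    uu i * vv L j' - uu i' * vv L j ≠ 0 := by
  intro hd
  have h1 : (uu i - uu i') * x + (vv L j - vv L j') * y = 0 := by
    linarith [h.2.2, h'.2.2]
  have h2 : uu i' - uu i = 0 := by
    have : uu i' * (uu i * x + vv L j * y) - uu i * (uu i' * x + vv L j' * y) = 0 := by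
      linear_combination (-y) * hd
    rw [h.2.2, h'.2.2] at this
    linarith
  have h3 : i' = i := uu_inj (by linarith)
  obtain ⟨-, -, c | c⟩ := h.cases hL h' hne <;> omega

/-- abscissa of the meeting point of two lines -/
noncomputable def meetX (L : ℝ) (i j i' j' : ℕ) : ℝ :=
  (vv L j' - vv L j) / (uu i * vv L j' - uu i' * vv L j)

/-- ordinate of the meeting point of two lines -/
noncomputable def meetY (L : ℝ) (i j i' j' : ℕ) : ℝ :=
  (uu i - uu i') / (uu i * vv L j' - uu i' * vv L j)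

lemma OnEdge.eq_meet {L : ℝ} (hL : 1 < L) {i j i' j' : ℕ} {x y : ℝ} (h : OnEdge L i j x y)
    (h' : OnEdge L i' j' x y) (hne : (i, j) ≠ (i', j')) :
    x = meetX L i j i' j' ∧ y = meetY L i j i' j' := by
  have hd := h.det_ne hL h' hne
  have e := h.2.2
  have e' := h'.2.2
  constructor
  · unfold meetX
    rw [eq_div_iff hd]
    linear_combination (vv L j') * e - (vv L j) * e'
  · unfold meetY
    rw [eq_div_iff hd]
    linear_combination (uu i) * e' - (uu i') * e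

/-- pairs `i < i' < r` of equal parity -/
def pairs (r : ℕ) : Finset (ℕ × ℕ) :=
  ((Finset.range r) ×ˢ (Finset.range r)).filter fun p => p.1 < p.2 ∧ p.1 % 2 = p.2 % 2

lemma card_same_parity (r : ℕ) :
    ((Finset.range r).filter fun i => i % 2 = r % 2).card = r / 2 := by
  have key : ∀ r : ℕ, ((Finset.range r).filter fun i => i % 2 = 0).card = (r + 1) / 2 ∧
      ((Finset.range r).filter fun i => i % 2 = 1).card = r / 2 := by
    intro r
    induction r with
    | zero => simp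
    | succ r ih =>
      rw [Finset.range_add_one, Finset.filter_insert, Finset.filter_insert]
      rcases Nat.mod_two_eq_zero_or_one r with h | h
      · rw [if_pos h, if_neg (by omega), Finset.card_insert_of_notMem (by simp), ih.1, ih.2]
        omega
      · rw [if_neg (by omega), if_pos h, Finset.card_insert_of_notMem (by simp), ih.1, ih.2]
        omega
  rcases Nat.mod_two_eq_zero_or_one r with h | h
  · rw [h, (key r).1]
    omega
  · rw [h, (key r).2]

lemma card_pairs (r : ℕ) : (pairs r).card = r / 2 * ((r - 1) / 2) := by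
  induction r with
  | zero => simp [pairs]
  | succ r ih =>
    have hsplit : pairs (r + 1) = pairs r ∪
        ((Finset.range r).filter fun i => i % 2 = r % 2).image (fun i => (i, r)) := by
      ext ⟨a, b⟩
      simp only [pairs, Finset.mem_filter, Finset.mem_product, Finset.mem_range, Finset.mem_union,
        Finset.mem_image, Prod.mk.injEq]
      constructor
      · rintro ⟨⟨h1, h2⟩, h3, h4⟩
        by_cases hb : b = r
        · right
          exact ⟨a, ⟨by omega, by omega⟩, rfl, hb.symm⟩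
        · left
          exact ⟨⟨by omega, by omega⟩, h3, h4⟩
      · rintro (⟨⟨h1, h2⟩, h3, h4⟩ | ⟨i, ⟨h1, h2⟩, rfl, rfl⟩)
        · exact ⟨⟨by omega, by omega⟩, h3, h4⟩
        · exact ⟨⟨by omega, by omega⟩, h1, h2⟩
    have hdisj : Disjoint (pairs r)
        (((Finset.range r).filter fun i => i % 2 = r % 2).image (fun i => (i, r))) := by
      rw [Finset.disjoint_left]
      rintro ⟨a, b⟩ h1 h2
      simp only [pairs, Finset.mem_filter, Finset.mem_product, Finset.mem_range,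
        Finset.mem_image, Prod.mk.injEq] at h1 h2
      obtain ⟨i, -, -, rfl⟩ := h2
      omega
    rw [hsplit, Finset.card_union_of_disjoint hdisj,
      Finset.card_image_of_injective _ (fun a b h => by simpa using h), card_same_parity, ih]
    rcases Nat.even_or_odd' r with ⟨k, rfl | rfl⟩
    · rcases k with _ | k
      · simp
      · have e1 : 2 * (k + 1) / 2 = k + 1 := by omega
        have e2 : (2 * (k + 1) - 1) / 2 = k := by omega
        have e3 : (2 * (k + 1) + 1) / 2 = k + 1 := by omega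
        have e4 : (2 * (k + 1) + 1 - 1) / 2 = k + 1 := by omega
        rw [e1, e2, e3, e4]
        ring
    · have e1 : (2 * k + 1) / 2 = k := by omega
      have e2 : (2 * k + 1 - 1) / 2 = k := by omega
      have e3 : (2 * k + 1 + 1) / 2 = k + 1 := by omega
      have e4 : (2 * k + 1 + 1 - 1) / 2 = k := by omega
      rw [e1, e2, e3, e4]
      ring

/-- the finite set containing all meeting points -/
noncomputable def meetSet (L : ℝ) (m n : ℕ) : Finset (ℝ × ℝ) := by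
  classical
  exact ((pairs m) ×ˢ (pairs n)).image fun p =>
    (meetX L p.1.1 p.2.2 p.1.2 p.2.1, meetY L p.1.1 p.2.2 p.1.2 p.2.1)

lemma card_meetSet_le (L : ℝ) (m n : ℕ) :
    (meetSet L m n).card ≤ (m / 2 * ((m - 1) / 2)) * (n / 2 * ((n - 1) / 2)) := by
  classical
  unfold meetSet
  refine Finset.card_image_le.trans ?_
  rw [Finset.card_product, card_pairs, card_pairs]

lemma OnEdge.mem_meetSet {L : ℝ} (hL : 1 < L) {m n i j i' j' : ℕ} {x y : ℝ}
    (h : OnEdge L i j x y) (h' : OnEdge L i' j' x y) (hne : (i, j) ≠ (i', j'))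
    (hi : i < m) (hi' : i' < m) (hj : j < n) (hj' : j' < n) : (x, y) ∈ meetSet L m n := by
  classical
  unfold meetSet
  obtain ⟨p1, p2, c | c⟩ := h.cases hL h' hne
  · obtain ⟨e1, e2⟩ := h.eq_meet hL h' hne
    refine Finset.mem_image.mpr ⟨((i, i'), (j', j)), ?_, ?_⟩
    · simp only [pairs, Finset.mem_filter, Finset.mem_product, Finset.mem_range]
      omega
    · rw [e1, e2]
  · obtain ⟨e1, e2⟩ := h'.eq_meet hL h hne.symm
    refine Finset.mem_image.mpr ⟨((i', i), (j, j')), ?_, ?_⟩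
    · simp only [pairs, Finset.mem_filter, Finset.mem_product, Finset.mem_range]
      omega
    · rw [e1, e2]

end Vale.Agent.P040
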