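import Vale.Agent.P040.Drawing
import Vale.Agent.P040.UpperGeom

/-!
The straight-line Zarankiewicz drawing of `K_{m,n}` has at most `d m * d n` crossings.
-/

namespace Vale.Agent.P040

open Set

lemma continuous_mk {X : Type} [TopologicalSpace X] {f g : X → ℝ} (hf : Continuous f)
    (hg : Continuous g) : Continuous fun x => (⟨f x, g x⟩ : ℂ) :=
  Complex.equivRealProdCLM.symm.continuous.comp (hf.prodMk hg) |>.congr fun x => by
    apply Complex.ext <;> simp [Complex.equivRealProdCLM_symm_apply]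

/-- the straight edge from ` (1 / uu i, 0)` to ` (0, 1 / vv L j)` -/
noncomputable def seg (L : ℝ) (i j : ℕ) (t : unitInterval) : ℂ :=
  ⟨(1 - (t : ℝ)) / uu i, (t : ℝ) / vv L j⟩

lemma seg_cont (L : ℝ) (i j : ℕ) : Continuous (seg L i j) :=
  continuous_mk (by fun_prop) (by fun_prop)

lemma seg_inj {L : ℝ} (hL : 0 < L) (i j : ℕ) : Function.Injective (seg L i j) := by
  intro s t h
  have h1 : (s : ℝ) / vv L j = (t : ℝ) / vv L j := congrArg Complex.im h
  rw [div_left_inj' (vv_ne hL j)] at h1
  exact Subtype.ext h1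

lemma seg_u (L : ℝ) (i j : ℕ) (t : unitInterval) : uu i * (seg L i j t).re = 1 - t := by
  have := uu_ne i
  simp only [seg]
  field_simp

lemma seg_v {L : ℝ} (hL : 0 < L) (i j : ℕ) (t : unitInterval) :
    vv L j * (seg L i j t).im = t := by
  have := vv_ne hL j
  simp only [seg]
  field_simp

lemma mem_arcInterior_seg {L : ℝ} (hL : 0 < L) {i j : ℕ} {z : ℂ} :
    z ∈ arcInterior (seg L i j) ↔ OnEdge L i j z.re z.im := by
  constructor
  · rintro ⟨t, ⟨h0, h1⟩, rfl⟩
    have a0 : (0 : ℝ) < t := lt_of_le_of_ne t.2.1 (fun h => h0 (Subtype.ext h.symm))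
    have a1 : (t : ℝ) < 1 := lt_of_le_of_ne t.2.2 (fun h => h1 (Subtype.ext h))
    refine ⟨?_, ?_, ?_⟩
    · rw [seg_u]
      linarith
    · rw [seg_v hL]
      exact a0
    · rw [seg_u, seg_v hL]
      ring
  · rintro ⟨h1, h2, h3⟩
    have hu := uu_ne i
    have hv := vv_ne hL j
    refine ⟨⟨vv L j * z.im, h2.le, by linarith⟩, ⟨?_, ?_⟩, ?_⟩
    · intro h
      have : vv L j * z.im = 0 := congrArg Subtype.val h
      linarith
    · intro h
      have : vv L j * z.im = 1 := congrArg Subtype.val h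
      linarith
    · apply Complex.ext
      · simp only [seg]
        rw [div_eq_iff hu]
        linarith
      · simp only [seg]
        field_simp

lemma mem_range_seg {L : ℝ} (hL : 0 < L) {i j : ℕ} {z : ℂ} (h1 : 0 < uu i * z.re)
    (h2 : 0 < vv L j * z.im) : z ∈ range (seg L i j) ↔ uu i * z.re + vv L j * z.im - 1 = 0 := by
  constructor
  · rintro ⟨t, rfl⟩
    rw [seg_u, seg_v hL]
    ring
  · intro h
    obtain ⟨t, -, ht⟩ := (mem_arcInterior_seg hL).mpr (⟨h1, h2, by linarith⟩ : OnEdge L i j _ _)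
    exact ⟨t, ht⟩

/-- an invertible affine map of the plane -/
noncomputable def affHomeo (a b c e : ℝ) (h : a * e - c * b ≠ 0) : ℂ ≃ₜ ℂ where
  toFun z := ⟨c * z.re + e * z.im - 1, a * z.re + b * z.im - 1⟩
  invFun w := ⟨(e * (w.im + 1) - b * (w.re + 1)) / (a * e - c * b),
    (a * (w.re + 1) - c * (w.im + 1)) / (a * e - c * b)⟩
  left_inv z := by
    apply Complex.ext
    · simp only
      rw [div_eq_iff h]
      ring
    · simp only
      rw [div_eq_iff h]
      ring
  right_inv w := by
    have hi := mul_inv_cancel₀ h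
    apply Complex.ext
    · simp only [div_eq_mul_inv]
      linear_combination (w.re + 1) * hi
    · simp only [div_eq_mul_inv]
      linear_combination (w.im + 1) * hi
  continuous_toFun := continuous_mk (by fun_prop) (by fun_prop)
  continuous_invFun := continuous_mk (by fun_prop) (by fun_prop)

lemma proper_seg {L : ℝ} (hL : 1 < L) {i j i' j' : ℕ} (hne : (i, j) ≠ (i', j')) {p : ℂ}
    (h : OnEdge L i j p.re p.im) (h' : OnEdge L i' j' p.re p.im) :
    ProperCrossingAt (seg L i j) (seg L i' j') p := by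
  have hL0 : 0 < L := by linarith
  have hd := h.det_ne hL h' hne
  have hS : IsOpen {z : ℂ | (0 < uu i * z.re ∧ 0 < vv L j * z.im) ∧
      (0 < uu i' * z.re ∧ 0 < vv L j' * z.im)} := by
    have h1 : ∀ a : ℝ, IsOpen {z : ℂ | 0 < a * z.re} := fun a =>
      isOpen_lt continuous_const (by fun_prop)
    have h2 : ∀ a : ℝ, IsOpen {z : ℂ | 0 < a * z.im} := fun a =>
      isOpen_lt continuous_const (by fun_prop)
    exact ((h1 _).inter (h2 _)).inter ((h1 _).inter (h2 _))
  refine ⟨(affHomeo (uu i) (vv L j) (uu i') (vv L j') hd).toOpenPartialHomeomorph.restrOpen _ hS,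
    ?_, ?_, ?_, ?_⟩
  · exact ⟨trivial, ⟨h.1, h.2.1⟩, h'.1, h'.2.1⟩
  · apply Complex.ext
    · change uu i' * p.re + vv L j' * p.im - 1 = 0
      linarith [h'.2.2]
    · change uu i * p.re + vv L j * p.im - 1 = 0
      linarith [h.2.2]
  · rintro z ⟨-, ⟨a1, a2⟩, -⟩
    exact mem_range_seg hL0 a1 a2
  · rintro z ⟨-, -, a1, a2⟩
    exact mem_range_seg hL0 a1 a2

lemma edge_repr {m n : ℕ} (e : (completeBipartiteGraph (Fin m) (Fin n)).edgeSet) :
    ∃ p : Fin m × Fin n, (e : Sym2 (Fin m ⊕ Fin n)) = s(Sum.inl p.1, Sum.inr p.2) := by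
  obtain ⟨e, he⟩ := e
  induction e using Sym2.ind with
  | _ a b =>
    rcases a with a | a <;> rcases b with b | b
    · simp at he
    · exact ⟨(a, b), rfl⟩
    · exact ⟨(b, a), Sym2.eq_swap⟩
    · simp at he

/-- positions of the vertices -/
noncomputable def zpos (L : ℝ) {m n : ℕ} : Fin m ⊕ Fin n → ℂ :=
  Sum.elim (fun i => ⟨1 / uu i, 0⟩) (fun j => ⟨0, 1 / vv L j⟩)

lemma zpos_inj {L : ℝ} (hL : 1 < L) {m n : ℕ} : Function.Injective (zpos L (m := m) (n := n)) := by
  have hL0 : 0 < L := by linarith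
  rintro (a | a) (b | b) h
  · have h1 : 1 / uu a = 1 / uu b := congrArg Complex.re h
    rw [one_div, one_div, inv_inj] at h1
    rw [Fin.ext (uu_inj h1)]
  · have h1 : 1 / uu a = 0 := congrArg Complex.re h
    exact absurd h1 (one_div_ne_zero (uu_ne _))
  · have h1 : 0 = 1 / uu b := congrArg Complex.re h
    exact absurd h1.symm (one_div_ne_zero (uu_ne _))
  · have h1 : 1 / vv L a = 1 / vv L b := congrArg Complex.im h
    rw [one_div, one_div, inv_inj] at h1
    rw [Fin.ext (vv_inj hL h1)]

/-- **Zarankiewicz's drawing**: `K_{m,n}` has a drawing with at most `d m * d n` crossings. -/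
theorem exists_drawing_le (m n : ℕ) :
    ∃ D : Drawing (completeBipartiteGraph (Fin m) (Fin n)), D.c ≤ d m * d n := by
  classical
  obtain ⟨L, hLm, hL⟩ : ∃ L : ℝ, (m : ℝ) + 1 ≤ L ∧ 1 < L :=
    ⟨m + 2, by linarith, by have : (0 : ℝ) ≤ m := Nat.cast_nonneg m; linarith⟩
  have hL0 : 0 < L := by linarith
  choose idx hidx using edge_repr (m := m) (n := n)
  have hne : ∀ e f, e ≠ f → (((idx e).1 : ℕ), ((idx e).2 : ℕ)) ≠
      (((idx f).1 : ℕ), ((idx f).2 : ℕ)) := by
    intro e f hef h
    apply hef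
    apply Subtype.ext
    rw [hidx e, hidx f]
    simp only [Prod.mk.injEq] at h
    rw [Fin.ext h.1, Fin.ext h.2]
  have hsub : {p : ℂ | ∃ e f, e ≠ f ∧ p ∈ arcInterior (seg L (idx e).1 (idx e).2) ∧
      p ∈ arcInterior (seg L (idx f).1 (idx f).2)} ⊆
      ((meetSet L m n).image fun q : ℝ × ℝ => (⟨q.1, q.2⟩ : ℂ) : Finset ℂ) := by
    rintro p ⟨e, f, hef, h1, h2⟩
    rw [mem_arcInterior_seg hL0] at h1 h2
    rw [Finset.coe_image]
    exact ⟨(p.re, p.im), h1.mem_meetSet hL h2 (hne e f hef) (idx e).1.2 (idx f).1.2 (idx e).2.2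
      (idx f).2.2, rfl⟩
  refine ⟨{ pos := zpos L
            pos_inj := zpos_inj hL
            arc := fun e => seg L (idx e).1 (idx e).2
            arc_cont := fun e => seg_cont _ _ _
            arc_inj := fun e => seg_inj hL0 _ _
            arc_ends := ?_
            avoid := ?_
            finite_meet := (Finset.finite_toSet _).subset hsub
            two := ?_
            proper := ?_ }, ?_⟩
  · intro e
    rw [hidx e, Sym2.map_mk]
    congr 1
    · apply Complex.ext <;> simp [seg, zpos]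
    · apply Complex.ext <;> simp [seg, zpos]
  · intro e v hv
    rw [mem_arcInterior_seg hL0] at hv
    rcases v with v | v
    · have := hv.2.1
      simp [zpos] at this
    · have := hv.1
      simp [zpos] at this
  · intro e f g p hef h1 h2 h3
    rw [mem_arcInterior_seg hL0] at h1 h2 h3
    rcases OnEdge.three hLm h1 h2 h3 (idx e).1.2 (idx f).1.2 (idx g).1.2 (hne e f hef) with h | h
    · left
      by_contra hc
      exact hne g e hc h
    · right
      by_contra hc
      exact hne g f hc h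
  · intro e f p hef h1 h2
    rw [mem_arcInterior_seg hL0] at h1 h2
    exact proper_seg hL (hne e f hef) h1 h2
  · refine (Set.ncard_le_ncard hsub (Finset.finite_toSet _)).trans ?_
    rw [Set.ncard_coe_finset]
    exact Finset.card_image_le.trans (card_meetSet_le L m n)

/-- From a lower bound for all drawings to the value of the crossing number. -/
theorem crossingNumber_eq_of_lower (m n : ℕ)
    (h : ∀ D : Drawing (completeBipartiteGraph (Fin m) (Fin n)), d m * d n ≤ D.c) :
    IsLeast (range fun D : Drawing (completeBipartiteGraph (Fin m) (Fin n)) => D.c) (d m * d n) ∧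
      crossingNumber (completeBipartiteGraph (Fin m) (Fin n)) = d m * d n := by
  obtain ⟨D, hD⟩ := exists_drawing_le m n
  have hl : IsLeast (range fun D : Drawing (completeBipartiteGraph (Fin m) (Fin n)) => D.c)
      (d m * d n) := ⟨⟨D, le_antisymm hD (h D)⟩, by rintro _ ⟨D', rfl⟩; exact h D'⟩
  exact ⟨hl, hl.csInf_eq⟩

end Vale.Agent.P040
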