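import Vale.Agent.P040.Planar
import Vale.Agent.P040.Upper

namespace Vale.Agent.P040

open Set

theorem exists_orient (γ : unitInterval → ℂ) {P Q : ℂ} (h : s(γ 0, γ 1) = s(P, Q)) :
    ∃ r : ℝ → unitInterval, Continuous r ∧ InjOn r (Icc 0 1) ∧ γ (r 0) = P ∧ γ (r 1) = Q ∧
      ∀ u ∈ Ioo (0 : ℝ) 1, r u ≠ 0 ∧ r u ≠ 1 := by
  have hc : Continuous (projIcc (0 : ℝ) 1 zero_le_one) := continuous_projIcc
  have hi : InjOn (projIcc (0 : ℝ) 1 zero_le_one) (Icc 0 1) := by
    intro u hu v hv huv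
    rw [projIcc_of_mem _ hu, projIcc_of_mem _ hv] at huv
    exact congrArg Subtype.val huv
  have h0 : projIcc (0 : ℝ) 1 zero_le_one 0 = (0 : unitInterval) := projIcc_left _
  have h1 : projIcc (0 : ℝ) 1 zero_le_one 1 = (1 : unitInterval) := projIcc_right _
  have hm : ∀ u ∈ Ioo (0 : ℝ) 1, projIcc (0 : ℝ) 1 zero_le_one u ≠ (0 : unitInterval) ∧
      projIcc (0 : ℝ) 1 zero_le_one u ≠ (1 : unitInterval) := by
    intro u hu
    rw [projIcc_of_mem _ (Ioo_subset_Icc_self hu)]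
    exact ⟨fun h => hu.1.ne' (congrArg Subtype.val h), fun h => hu.2.ne (congrArg Subtype.val h)⟩
  rcases Sym2.eq_iff.mp h with ⟨a, b⟩ | ⟨a, b⟩
  · exact ⟨_, hc, hi, h0 ▸ a, h1 ▸ b, hm⟩
  · refine ⟨fun u => unitInterval.symm (projIcc (0 : ℝ) 1 zero_le_one u),
      unitInterval.continuous_symm.comp hc,
      fun u hu v hv huv => hi hu hv (unitInterval.symm_bijective.1 huv), ?_, ?_, fun u hu => ?_⟩
    · simp only [h0, unitInterval.symm_zero, b]
    · simp only [h1, unitInterval.symm_one, a]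
    · simp only [ne_eq, unitInterval.symm_eq_zero, unitInterval.symm_eq_one]
      exact (hm u hu).symm

theorem lower_bound (m n : ℕ) (pos : Fin m ⊕ Fin n → ℂ)
    (arc : (completeBipartiteGraph (Fin m) (Fin n)).edgeSet → unitInterval → ℂ)
    (pos_inj : Function.Injective pos) (arc_cont : ∀ e, Continuous (arc e))
    (arc_inj : ∀ e, Function.Injective (arc e))
    (arc_ends : ∀ e, s(arc e 0, arc e 1) = (e : Sym2 (Fin m ⊕ Fin n)).map pos)
    (avoid : ∀ e v, pos v ∉ arcInterior (arc e))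
    (finite_meet : {p | ∃ e f, e ≠ f ∧ p ∈ arcInterior (arc e) ∧ p ∈ arcInterior (arc f)}.Finite)
    (two : ∀ e f g p, e ≠ f → p ∈ arcInterior (arc e) → p ∈ arcInterior (arc f) →
      p ∈ arcInterior (arc g) → g = e ∨ g = f) :
    d m * d n ≤ {p | ∃ e f, e ≠ f ∧ p ∈ arcInterior (arc e) ∧ p ∈ arcInterior (arc f)}.ncard := by
  rcases Nat.eq_zero_or_pos m with rfl | hm
  · simp [d]
  rcases Nat.eq_zero_or_pos n with rfl | hn
  · simp [d]
  let E : Fin m × Fin n → (completeBipartiteGraph (Fin m) (Fin n)).edgeSet :=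
    fun e => ⟨s(Sum.inl e.1, Sum.inr e.2), by simp⟩
  have hE : Function.Injective E := by
    intro e f h
    have h' : s(Sum.inl e.1, Sum.inr e.2) = s((Sum.inl f.1 : Fin m ⊕ Fin n), Sum.inr f.2) :=
      congrArg Subtype.val h
    simpa [Prod.ext_iff] using h'
  choose r rc ri r0 r1 rm using fun e : Fin m × Fin n =>
    exists_orient (arc (E e)) (P := pos (Sum.inl e.1)) (Q := pos (Sum.inr e.2)) (arc_ends (E e))
  have hint : ∀ e, ∀ u ∈ Ioo (0 : ℝ) 1, arc (E e) (r e u) ∈ arcInterior (arc (E e)) :=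
    fun e u hu => ⟨r e u, rm e u hu, rfl⟩
  rw [Set.ncard_eq_toFinset_card _ finite_meet]
  refine planar_bound (fun a => pos (Sum.inl a)) (fun x => pos (Sum.inr x))
    (pos_inj.comp Sum.inl_injective) (pos_inj.comp Sum.inr_injective)
    (fun a x h => Sum.inl_ne_inr (pos_inj h)) (fun e u => arc (E e) (r e u))
    (fun e => (arc_cont _).comp (rc e)) (fun e u hu v hv h => ri e hu hv (arc_inj _ h)) r0 r1
    (fun e u hu => ⟨fun a h => avoid _ _ (h ▸ hint e u hu), fun a h => avoid _ _ (h ▸ hint e u hu)⟩)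
    _ ?_ ?_ (by simp only [Fintype.card_fin]; omega) (by simp only [Fintype.card_fin]; omega)
  · intro e f hef u hu v hv h
    exact finite_meet.mem_toFinset.mpr ⟨E e, E f, hE.ne hef, hint e u hu, h ▸ hint f v hv⟩
  · intro e f g hef u hu v hv w hw h1 h2
    exact (two (E e) (E f) (E g) _ (hE.ne hef) (hint e u hu) (h1 ▸ hint f v hv)
      (h2 ▸ hint g w hw)).imp (fun h => hE h) fun h => hE h

end Vale.Agent.P040
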