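import Mathlib.Analysis.Complex.CoveringMap
import Mathlib.Topology.Homotopy.Lifting
import Mathlib.Analysis.Convex.Contractible
import Mathlib.Topology.Algebra.Module.LocallyConvex
import Mathlib.Analysis.LocallyConvex.WithSeminorms

namespace Vale.Agent.P040

open Set Complex

theorem exists_log {X : Type} [TopologicalSpace X] [SimplyConnectedSpace X]
    [LocallyPathConnectedSpace X] (F : X → ℂ) (hF : Continuous F) (h0 : ∀ x, F x ≠ 0) :
    ∃ L : X → ℂ, Continuous L ∧ ∀ x, exp (L x) = F x := by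
  obtain ⟨x0⟩ : Nonempty X := inferInstance
  obtain ⟨L, ⟨-, hL⟩, -⟩ := isCoveringMapOn_exp.existsUnique_continuousMap_lifts
    (⟨F, hF⟩ : C(X, ℂ)) (a₀ := x0) (exp_log (h0 x0)) h0
  exact ⟨L, L.continuous, fun x => congrFun hL x⟩

open Classical in
/-- Variation of the logarithm of `f u - w` along `[s, t]`. -/
noncomputable def wind (f : ℝ → ℂ) (s t : ℝ) (w : ℂ) : ℂ :=
  if h : ∃ L : ℝ → ℂ, ContinuousOn L (Icc s t) ∧ ∀ u ∈ Icc s t, exp (L u) = f u - w then
    h.choose t - h.choose s else 0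

theorem wind_eq {f : ℝ → ℂ} {s t : ℝ} (hst : s ≤ t) {w : ℂ} {L : ℝ → ℂ}
    (hL : ContinuousOn L (Icc s t)) (he : ∀ u ∈ Icc s t, exp (L u) = f u - w) :
    wind f s t w = L t - L s := by
  have h : ∃ L : ℝ → ℂ, ContinuousOn L (Icc s t) ∧ ∀ u ∈ Icc s t, exp (L u) = f u - w :=
    ⟨L, hL, he⟩
  rw [wind, dif_pos h]
  obtain ⟨hL', he'⟩ := h.choose_spec
  set L' := h.choose
  have h1 : ∀ u ∈ Icc s t, exp (L' u - L u) = 1 := by
    intro u hu
    rw [exp_sub, he' u hu, ← he u hu, div_self (exp_ne_zero _)]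
  have := isCoveringMap_exp.constOn_of_comp isPreconnected_Icc (hL'.sub hL)
    (fun a ha b hb => Subtype.ext ((h1 a ha).trans (h1 b hb).symm))
    (left_mem_Icc.mpr hst) (right_mem_Icc.mpr hst)
  simp only [Pi.sub_apply] at this
  linear_combination -this

/-- Clamping to `[s, t]`. -/
def clamp (s t u : ℝ) : ℝ := max s (min u t)

theorem clamp_mem {s t : ℝ} (hst : s ≤ t) (u : ℝ) : clamp s t u ∈ Icc s t :=
  ⟨le_max_left _ _, max_le hst (min_le_right _ _)⟩

theorem clamp_eq {s t u : ℝ} (hu : u ∈ Icc s t) : clamp s t u = u := by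
  rw [clamp, min_eq_left hu.2, max_eq_right hu.1]

theorem clamp_cont (s t : ℝ) : Continuous (clamp s t) := by
  unfold clamp
  fun_prop

theorem wind_add {f : ℝ → ℂ} (hf : Continuous f) {s e t : ℝ} (hse : s ≤ e) (het : e ≤ t) {w : ℂ}
    (hw : ∀ u ∈ Icc s t, f u ≠ w) : wind f s t w = wind f s e w + wind f e t w := by
  have hst := hse.trans het
  obtain ⟨L, hL, he⟩ := exists_log (fun u => f (clamp s t u) - w)
    ((hf.comp (clamp_cont s t)).sub continuous_const)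
    fun u => sub_ne_zero.mpr (hw _ (clamp_mem hst u))
  have he' : ∀ u ∈ Icc s t, exp (L u) = f u - w := fun u hu => by rw [he, clamp_eq hu]
  rw [wind_eq hst hL.continuousOn he',
    wind_eq hse hL.continuousOn fun u hu => he' u ⟨hu.1, hu.2.trans het⟩,
    wind_eq het hL.continuousOn fun u hu => he' u ⟨hse.trans hu.1, hu.2⟩]
  ring

theorem wind_square {f g : ℝ → ℂ} (hf : Continuous f) (hg : Continuous g) {s t s' t' : ℝ}
    (hst : s ≤ t) (hst' : s' ≤ t') (hd : ∀ u ∈ Icc s t, ∀ v ∈ Icc s' t', f u ≠ g v) :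
    wind f s t (g s') - wind f s t (g t') + wind g s' t' (f t) - wind g s' t' (f s) = 0 := by
  obtain ⟨L, hL, he⟩ := exists_log (fun z : ℝ × ℝ => f (clamp s t z.1) - g (clamp s' t' z.2))
    ((hf.comp ((clamp_cont s t).comp continuous_fst)).sub
      (hg.comp ((clamp_cont s' t').comp continuous_snd)))
    fun z => sub_ne_zero.mpr (hd _ (clamp_mem hst _) _ (clamp_mem hst' _))
  have h1 : ∀ v ∈ Icc s' t', wind f s t (g v) = L (t, v) - L (s, v) := fun v hv =>
    wind_eq hst (L := fun u => L (u, v)) (by fun_prop) fun u hu => by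
      rw [he, clamp_eq hu, clamp_eq hv]
  have h2 : ∀ u ∈ Icc s t, wind g s' t' (f u) = (L (u, t') + Real.pi * I) - (L (u, s') + Real.pi * I) :=
    fun u hu => wind_eq hst' (L := fun v => L (u, v) + Real.pi * I) (by fun_prop) fun v hv => by
      rw [exp_add, he, exp_pi_mul_I, clamp_eq hu, clamp_eq hv]
      ring
  rw [h1 _ (left_mem_Icc.mpr hst'), h1 _ (right_mem_Icc.mpr hst'), h2 _ (left_mem_Icc.mpr hst),
    h2 _ (right_mem_Icc.mpr hst)]
  ring

theorem re_one_sub_pos {a b : ℂ} (hb : b ≠ 0) (hab : ‖a‖ ≤ ‖b‖) (hne : a ≠ b) :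
    0 < (1 - a / b).re := by
  have h1 : ‖a / b‖ ≤ 1 := by
    rw [norm_div]
    exact div_le_one_of_le₀ hab (norm_nonneg _)
  have h2 : a / b ≠ 1 := fun h => hne ((div_eq_one_iff_eq hb).mp h)
  set ω := a / b
  rw [sub_re, one_re, sub_pos]
  by_contra h
  apply h2
  have h3 : ω.re ^ 2 + ω.im ^ 2 ≤ 1 := by
    have := Complex.sq_norm ω
    rw [normSq_apply] at this
    nlinarith [norm_nonneg ω]
  have h4 : 1 ≤ ω.re := not_lt.mp h
  apply Complex.ext
  · simp only [one_re]; nlinarith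
  · simp only [one_im]; nlinarith

theorem wind_disc {f : ℝ → ℂ} (hf : Continuous f) {e : ℝ} (he : 0 ≤ e) {p : ℂ} (hp : p ≠ f 0)
    (h1 : ∀ u ∈ Icc 0 e, ‖f u - f 0‖ ≤ ‖p - f 0‖) (h2 : ∀ u ∈ Icc 0 e, f u ≠ p) :
    wind f 0 e p = log (1 - (f e - f 0) / (p - f 0)) := by
  have hb : p - f 0 ≠ 0 := sub_ne_zero.mpr hp
  have hpos : ∀ u ∈ Icc 0 e, 0 < (1 - (f u - f 0) / (p - f 0)).re := fun u hu =>
    re_one_sub_pos hb (h1 u hu) fun h => h2 u hu (sub_left_injective h)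
  rw [wind_eq he (L := fun u => log (f 0 - p) + log (1 - (f u - f 0) / (p - f 0)))]
  · simp
  · refine continuousOn_const.add (ContinuousOn.clog (by fun_prop) fun u hu => ?_)
    exact Or.inl (hpos u hu)
  · intro u hu
    rw [exp_add, exp_log (sub_ne_zero.mpr hp.symm), exp_log fun h => by
      have := hpos u hu
      rw [h] at this
      simp at this]
    field_simp
    ring

theorem log_two_points {a b : ℂ} (ha : a ≠ 0) (hab : ‖a‖ = ‖b‖) (hne : a ≠ b) :
    log (1 - b / a) - log (1 - a / b) = -(arg a * I) + Real.pi * I + arg b * I +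
      if arg a < arg b then -(2 * Real.pi * I) else 0 := by
  have hb : b ≠ 0 := by
    rw [← norm_ne_zero_iff, ← hab]
    exact norm_ne_zero_iff.mpr ha
  have p1 := re_one_sub_pos ha hab.ge hne.symm
  have p2 := re_one_sub_pos hb hab.le hne
  have q1 := abs_lt.mp (abs_arg_lt_pi_div_two_iff.mpr (Or.inl p1))
  have q2 := abs_lt.mp (abs_arg_lt_pi_div_two_iff.mpr (Or.inl p2))
  have n1 : 1 - b / a ≠ 0 := fun h => by rw [h] at p1; simp at p1
  have n2 : 1 - a / b ≠ 0 := fun h => by rw [h] at p2; simp at p2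
  have hα : arg a ≠ arg b := fun h => hne (ext_norm_arg hab h)
  have a1 := neg_pi_lt_arg a
  have a2 := arg_le_pi a
  have b1 := neg_pi_lt_arg b
  have b2 := arg_le_pi b
  have hr : (‖a‖ : ℂ) ≠ 0 := ofReal_ne_zero.mpr (norm_ne_zero_iff.mpr ha)
  have ea : exp (arg a * I) = a / ‖a‖ := by
    rw [eq_div_iff hr, mul_comm, norm_mul_exp_arg_mul_I]
  have eb : exp (arg b * I) = b / ‖a‖ := by
    rw [eq_div_iff hr, mul_comm, hab, norm_mul_exp_arg_mul_I]
  have hsub : a - b ≠ 0 := sub_ne_zero.mpr hne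
  have hsub' : b - a ≠ 0 := sub_ne_zero.mpr hne.symm
  apply exp_inj_of_neg_pi_lt_of_le_pi
  · rw [sub_im, log_im, log_im]; linarith
  · rw [sub_im, log_im, log_im]; linarith
  · split_ifs with h
    · simp; linarith
    · simp; linarith
  · split_ifs with h
    · simp; linarith
    · have := lt_of_le_of_ne (not_lt.mp h) hα.symm
      simp; linarith
  · have e0 : exp (if arg a < arg b then -(2 * Real.pi * I) else 0) = 1 := by
      split_ifs
      · rw [exp_neg, exp_two_pi_mul_I, inv_one]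
      · exact exp_zero
    rw [exp_sub, exp_log n1, exp_log n2, exp_add, exp_add, exp_add, e0, exp_neg, ea, eb,
      exp_pi_mul_I]
    field_simp
    ring

theorem exists_first_hit {f : ℝ → ℂ} (hf : Continuous f) {ρ : ℝ} (hρ : 0 < ρ)
    (h1 : ρ < ‖f 1 - f 0‖) :
    ∃ e ∈ Ioo (0 : ℝ) 1, ‖f e - f 0‖ = ρ ∧ ∀ u ∈ Icc 0 e, ‖f u - f 0‖ ≤ ρ := by
  have hc : Continuous fun u => ‖f u - f 0‖ := by fun_prop
  have hIV : ∀ t, 0 ≤ t → ρ ≤ ‖f t - f 0‖ → ∃ u ∈ Icc 0 t, ‖f u - f 0‖ = ρ := fun t ht h =>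
    intermediate_value_Icc ht hc.continuousOn ⟨by simpa using hρ.le, h⟩
  have hK : IsCompact (Icc (0 : ℝ) 1 ∩ {u | ‖f u - f 0‖ = ρ}) :=
    isCompact_Icc.inter_right (isClosed_eq hc continuous_const)
  obtain ⟨e, ⟨⟨he0, he1⟩, he2⟩, hmin⟩ := hK.exists_isLeast (hIV 1 zero_le_one h1.le)
  have he2' : ‖f e - f 0‖ = ρ := he2
  refine ⟨e, ⟨lt_of_le_of_ne he0 ?_, lt_of_le_of_ne he1 ?_⟩, he2', fun u hu => ?_⟩
  · rintro rfl
    simp at he2'
    exact hρ.ne he2'
  · rintro rfl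
    exact h1.ne' he2'
  · by_contra h
    obtain ⟨v, hv, hv'⟩ := hIV u hu.1 (not_le.mp h).le
    have := hmin ⟨⟨hv.1, hv.2.trans (hu.2.trans he1)⟩, hv'⟩
    have huv : v = u := le_antisymm hv.2 (hu.2.trans this)
    exact h (huv ▸ hv'.le)

theorem dart_index {D : Type} [Finite D] (path : D → ℝ → ℂ) (hc : ∀ h, Continuous (path h))
    (h0 : ∀ h, path h 1 ≠ path h 0) :
    ∃ (α : D → ℝ) (G G' : D → ℂ),
      (∀ h h', (∀ u ∈ Ioo (0 : ℝ) 1, ∀ u' ∈ Ioo (0 : ℝ) 1, path h u ≠ path h' u') →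
        path h 0 = path h' 0 → α h ≠ α h') ∧
      ∀ h h', (∀ u ∈ Icc (0 : ℝ) 1, ∀ u' ∈ Icc (0 : ℝ) 1, path h u = path h' u' → u = 0 ∧ u' = 0) →
        wind (path h) 0 1 (path h' 0) - wind (path h) 0 1 (path h' 1) +
          wind (path h') 0 1 (path h 1) - wind (path h') 0 1 (path h 0) =
        if path h 0 = path h' 0 then G h + G' h' +
          (if α h < α h' then -(2 * Real.pi * I) else 0) else 0 := by
  classical
  obtain ⟨ρ, hρ, hρ'⟩ : ∃ ρ : ℝ, 0 < ρ ∧ ∀ h, ρ < ‖path h 1 - path h 0‖ := by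
    rcases isEmpty_or_nonempty D with hD | hD
    · exact ⟨1, one_pos, fun h => hD.elim h⟩
    · obtain ⟨h, hh⟩ := Finite.exists_min fun h => ‖path h 1 - path h 0‖
      have : 0 < ‖path h 1 - path h 0‖ := norm_pos_iff.mpr (sub_ne_zero.mpr (h0 h))
      exact ⟨‖path h 1 - path h 0‖ / 2, by linarith, fun h' => by linarith [hh h']⟩
  choose e he he1 he2 using fun h => exists_first_hit (hc h) hρ (hρ' h)
  refine ⟨fun h => arg (path h (e h) - path h 0),
    fun h => wind (path h) 0 1 (path h 0) - wind (path h) (e h) 1 (path h 0) -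
      arg (path h (e h) - path h 0) * I + Real.pi * I,
    fun h => -wind (path h) 0 1 (path h 0) + wind (path h) (e h) 1 (path h 0) +
      arg (path h (e h) - path h 0) * I, ?_, ?_⟩
  · intro h h' hd hz hα
    have := ext_norm_arg ((he1 h).trans (he1 h').symm) hα
    rw [hz] at this
    exact hd _ (he h) _ (he h') (sub_left_injective this)
  · intro h h' hd
    by_cases hz : path h 0 = path h' 0
    swap
    · rw [if_neg hz]
      refine wind_square (hc h) (hc h') zero_le_one zero_le_one fun u hu v hv huv => hz ?_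
      obtain ⟨rfl, rfl⟩ := hd u hu v hv huv
      exact huv
    rw [if_pos hz]
    obtain ⟨e0, e1⟩ := he h
    obtain ⟨f0, f1⟩ := he h'
    have hd1 : ∀ u ∈ Icc (0 : ℝ) 1, ∀ v ∈ Icc (0 : ℝ) 1, 0 < v → path h u ≠ path h' v :=
      fun u hu v hv h1 h2 => h1.ne' (hd u hu v hv h2).2
    have hd2 : ∀ u ∈ Icc (0 : ℝ) 1, ∀ v ∈ Icc (0 : ℝ) 1, 0 < u → path h u ≠ path h' v :=
      fun u hu v hv h1 h2 => h1.ne' (hd u hu v hv h2).1
    have S1 := wind_square (hc h) (hc h') e0.le f1.le fun u hu v hv =>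
      hd1 u ⟨hu.1, hu.2.trans e1.le⟩ v ⟨f0.le.trans hv.1, hv.2⟩ (f0.trans_le hv.1)
    have S2 := wind_square (hc h) (hc h') e1.le f0.le fun u hu v hv =>
      hd2 u ⟨e0.le.trans hu.1, hu.2⟩ v ⟨hv.1, hv.2.trans f1.le⟩ (e0.trans_le hu.1)
    have S3 := wind_square (hc h) (hc h') e1.le f1.le fun u hu v hv =>
      hd2 u ⟨e0.le.trans hu.1, hu.2⟩ v ⟨f0.le.trans hv.1, hv.2⟩ (e0.trans_le hu.1)
    have A1 := wind_add (hc h) e0.le e1.le (w := path h' 1) fun u hu =>
      hd1 u hu 1 ⟨zero_le_one, le_rfl⟩ one_pos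
    have A2 := wind_add (hc h') f0.le f1.le (w := path h 1) fun v hv =>
      (hd2 1 ⟨zero_le_one, le_rfl⟩ v hv one_pos).symm
    have n1 : path h (e h) - path h 0 ≠ 0 := by
      rw [← norm_ne_zero_iff, he1]; exact hρ.ne'
    have n2 : path h' (e h') - path h' 0 ≠ 0 := by
      rw [← norm_ne_zero_iff, he1]; exact hρ.ne'
    have D1 := wind_disc (hc h) e0.le (p := path h' (e h')) (by rw [hz]; exact sub_ne_zero.mp n2)
      (fun u hu => by rw [hz, he1, ← hz]; exact he2 h u hu)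
      fun u hu => hd1 u ⟨hu.1, hu.2.trans e1.le⟩ _ ⟨f0.le, f1.le⟩ f0
    have D2 := wind_disc (hc h') f0.le (p := path h (e h)) (by rw [← hz]; exact sub_ne_zero.mp n1)
      (fun u hu => by rw [← hz, he1, hz]; exact he2 h' u hu)
      fun v hv => (hd2 _ ⟨e0.le, e1.le⟩ v ⟨hv.1, hv.2.trans f1.le⟩ e0).symm
    have L := log_two_points n1 ((he1 h).trans (he1 h').symm) (by
      rw [hz]
      exact fun h1 => hd1 _ ⟨e0.le, e1.le⟩ _ ⟨f0.le, f1.le⟩ f0 (sub_left_injective h1))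
    simp only [← hz] at S1 S2 S3 A1 A2 D1 D2 L ⊢
    linear_combination S1 + S2 + S3 - A1 + A2 - D1 + D2 + L

end Vale.Agent.P040
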