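import Vale.Agent.P040.Comb
import Vale.Agent.P040.Wind

namespace Vale.Agent.P040

open Set

theorem exists_enum (T : Finset ℝ) (hT : ∀ u ∈ T, u ∈ Ioo (0 : ℝ) 1) :
    ∃ (k : ℕ) (τ : ℕ → ℝ), StrictMono τ ∧ τ 0 = 0 ∧ τ (k + 1) = 1 ∧
      (∀ i, i < k → τ (i + 1) ∈ T) ∧ ∀ u ∈ T, ∃ i, τ i = u := by
  let E := T.orderEmbOfFin rfl
  have hE : ∀ i, E i ∈ T := fun i => Finset.orderEmbOfFin_mem T rfl i
  let τ : ℕ → ℝ := fun i => match i with
    | 0 => 0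
    | j + 1 => if h : j < T.card then E ⟨j, h⟩ else (j - T.card + 1 : ℝ)
  have h1 : ∀ j (h : j < T.card), τ (j + 1) = E ⟨j, h⟩ := fun j h => dif_pos h
  have h2 : ∀ j, ¬ j < T.card → τ (j + 1) = (j - T.card + 1 : ℝ) := fun j h => dif_neg h
  refine ⟨T.card, τ, strictMono_nat_of_lt_succ fun i => ?_, rfl, ?_, fun i hi => ?_,
    fun u hu => ?_⟩
  · rcases i with _ | j
    · change 0 < τ (0 + 1)
      by_cases h : 0 < T.card
      · rw [h1 0 h]
        exact (hT _ (hE _)).1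
      · rw [h2 0 h, show T.card = 0 by omega]
        simp
    · by_cases h : j + 1 < T.card
      · rw [h1 _ h, h1 j (by omega)]
        exact E.strictMono (by simp [Fin.lt_def])
      · rw [h2 _ h]
        by_cases h' : j < T.card
        · rw [h1 j h']
          have := (hT _ (hE ⟨j, h'⟩)).2
          have h3 : ((j + 1 : ℕ) : ℝ) = T.card := by
            exact_mod_cast (show j + 1 = T.card by omega)
          linarith
        · rw [h2 j h']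
          push_cast
          linarith
  · rw [h2 _ (lt_irrefl _)]
    simp
  · rw [h1 i hi]
    exact hE _
  · have : u ∈ range E := by
      rw [Finset.range_orderEmbOfFin]
      exact hu
    obtain ⟨j, rfl⟩ := this
    exact ⟨j + 1, h1 j j.2⟩

theorem planar_bound {A B : Type} [Fintype A] [Fintype B] (P : A → ℂ) (Q : B → ℂ)
    (hP : Function.Injective P) (hQ : Function.Injective Q) (hPQ : ∀ a x, P a ≠ Q x)
    (γ : A × B → ℝ → ℂ) (hc : ∀ e, Continuous (γ e)) (hinj : ∀ e, InjOn (γ e) (Icc 0 1))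
    (h0 : ∀ e, γ e 0 = P e.1) (h1 : ∀ e, γ e 1 = Q e.2)
    (hav : ∀ e, ∀ u ∈ Ioo (0 : ℝ) 1, (∀ a, γ e u ≠ P a) ∧ ∀ x, γ e u ≠ Q x) (X : Finset ℂ)
    (hX : ∀ e f, e ≠ f → ∀ u ∈ Ioo (0 : ℝ) 1, ∀ v ∈ Ioo (0 : ℝ) 1, γ e u = γ f v → γ e u ∈ X)
    (htwo : ∀ e f g, e ≠ f → ∀ u ∈ Ioo (0 : ℝ) 1, ∀ v ∈ Ioo (0 : ℝ) 1, ∀ w ∈ Ioo (0 : ℝ) 1,
      γ f v = γ e u → γ g w = γ e u → g = e ∨ g = f)
    {p q p' q' : ℕ} (hm : p + q + 1 = Fintype.card A) (hn : p' + q' + 1 = Fintype.card B) :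
    p * q * (p' * q') ≤ X.card := by
  classical
  have hfin : ∀ e, {u | u ∈ Ioo (0 : ℝ) 1 ∧ γ e u ∈ X}.Finite := by
    intro e
    refine Set.Finite.of_finite_image (f := γ e) (X.finite_toSet.subset ?_)
      ((hinj e).mono fun u hu => Ioo_subset_Icc_self hu.1)
    rintro _ ⟨u, hu, rfl⟩
    exact hu.2
  choose k τ hτ τ0 τ1 τT Tτ using fun e => exists_enum (hfin e).toFinset
    fun u hu => ((hfin e).mem_toFinset.mp hu).1
  simp only [Set.Finite.mem_toFinset, mem_ofPred_eq] at τT Tτ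
  let Seg := {σ : (A × B) × ℕ // σ.2 ≤ k σ.1}
  have : Finite Seg := Finite.of_surjective
    (fun s : Σ e, Fin (k e + 1) => (⟨(s.1, s.2), Nat.lt_succ_iff.mp s.2.2⟩ : Seg))
    fun σ => ⟨⟨σ.1.1, ⟨σ.1.2, Nat.lt_succ_of_le σ.2⟩⟩, rfl⟩
  let _ : Fintype Seg := Fintype.ofFinite Seg
  let lo : Seg → ℝ := fun σ => τ σ.1.1 σ.1.2
  let hi : Seg → ℝ := fun σ => τ σ.1.1 (σ.1.2 + 1)
  have hlohi : ∀ σ, lo σ < hi σ := fun σ => hτ _ (Nat.lt_succ_self _)
  have hlo : ∀ σ, 0 ≤ lo σ := fun σ => τ0 σ.1.1 ▸ (hτ _).monotone (Nat.zero_le _)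
  have hhi : ∀ σ, hi σ ≤ 1 := fun σ => τ1 σ.1.1 ▸ (hτ _).monotone (Nat.succ_le_succ σ.2)
  have sep : ∀ σ σ' : Seg, σ ≠ σ' → ∀ s ∈ Ioo (lo σ) (hi σ), ∀ v ∈ Icc (lo σ') (hi σ'),
      γ σ.1.1 s ≠ γ σ'.1.1 v := by
    intro σ σ' hne s hs v hv h
    have hs' : s ∈ Ioo (0 : ℝ) 1 := ⟨(hlo σ).trans_lt hs.1, hs.2.trans_le (hhi σ)⟩
    have hv' : v ∈ Icc (0 : ℝ) 1 := ⟨(hlo σ').trans hv.1, hv.2.trans (hhi σ')⟩
    by_cases he : σ.1.1 = σ'.1.1
    · rw [← he] at h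
      have hsv := hinj _ (Ioo_subset_Icc_self hs') hv' h
      subst hsv
      have a1 : τ σ.1.1 σ.1.2 < τ σ.1.1 (σ'.1.2 + 1) := by
        have := hs.1.trans_le hv.2
        simpa only [lo, hi, ← he] using this
      have a2 : τ σ.1.1 σ'.1.2 < τ σ.1.1 (σ.1.2 + 1) := by
        have := hv.1.trans_lt hs.2
        simpa only [lo, hi, ← he] using this
      rw [(hτ _).lt_iff_lt] at a1 a2
      exact hne (Subtype.ext (Prod.ext he (by omega)))
    · rcases hv'.1.eq_or_lt with rfl | hv0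
      · exact (hav _ s hs').1 _ (h.trans (h0 _))
      rcases hv'.2.eq_or_lt with rfl | hv1
      · exact (hav _ s hs').2 _ (h.trans (h1 _))
      obtain ⟨l, rfl⟩ := Tτ _ s ⟨hs', hX _ _ he s hs' v ⟨hv0, hv1⟩ h⟩
      have a1 := (hτ _).lt_iff_lt.mp hs.1
      have a2 := (hτ _).lt_iff_lt.mp hs.2
      omega
  let par : Seg → Bool → ℝ := fun σ β => if β then hi σ else lo σ
  let θ : Seg × Bool → ℝ → ℝ := fun h u =>
    par h.1 h.2 + u * ((lo h.1 + hi h.1) / 2 - par h.1 h.2)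
  have hθ1 : ∀ h, ∀ u ∈ Icc (0 : ℝ) 1, θ h u ∈ Icc (lo h.1) (hi h.1) := by
    rintro ⟨σ, β⟩ u hu
    have := hlohi σ
    cases β <;> simp only [θ, par, if_true, Bool.false_eq_true, if_false] <;>
      constructor <;> nlinarith [hu.1, hu.2]
  have hθ2 : ∀ h, ∀ u ∈ Icc (0 : ℝ) 1, 0 < u → θ h u ∈ Ioo (lo h.1) (hi h.1) := by
    rintro ⟨σ, β⟩ u hu hu0
    have := hlohi σ
    cases β <;> simp only [θ, par, if_true, Bool.false_eq_true, if_false] <;>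
      constructor <;> nlinarith [hu.1, hu.2]
  let path : Seg × Bool → ℝ → ℂ := fun h u => γ h.1.1.1 (θ h u)
  have hp0 : ∀ σ β, path (σ, β) 0 = γ σ.1.1 (par σ β) := fun σ β => by simp [path, θ]
  have hp1 : ∀ σ β, path (σ, β) 1 = γ σ.1.1 ((lo σ + hi σ) / 2) := fun σ β => by simp [path, θ]
  have hI : ∀ σ, ∀ u ∈ Icc (lo σ) (hi σ), u ∈ Icc (0 : ℝ) 1 := fun σ u hu =>
    ⟨(hlo σ).trans hu.1, hu.2.trans (hhi σ)⟩
  obtain ⟨α, G, G', hα, hJ⟩ := dart_index path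
    (fun h => (hc _).comp (by simp only [θ]; fun_prop)) (by
      rintro ⟨σ, β⟩ h
      have := hinj _ (hI _ _ (hθ1 (σ, β) 1 ⟨zero_le_one, le_rfl⟩))
        (hI _ _ (hθ1 (σ, β) 0 ⟨le_rfl, zero_le_one⟩)) h
      have h2 := hlohi σ
      cases β <;> simp only [θ, par, if_true, Bool.false_eq_true, if_false] at this <;> linarith)
  have hsep : ∀ σ σ' β β', σ ≠ σ' → ∀ u ∈ Icc (0 : ℝ) 1, ∀ u' ∈ Icc (0 : ℝ) 1,
      path (σ, β) u = path (σ', β') u' → u = 0 ∧ u' = 0 := by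
    intro σ σ' β β' hne u hu u' hu' h
    constructor
    · by_contra h'
      exact sep σ σ' hne _ (hθ2 (σ, β) u hu (lt_of_le_of_ne hu.1 (Ne.symm h'))) _
        (hθ1 (σ', β') u' hu') h
    · by_contra h'
      exact sep σ' σ hne.symm _ (hθ2 (σ', β') u' hu' (lt_of_le_of_ne hu'.1 (Ne.symm h'))) _
        (hθ1 (σ, β) u hu) h.symm
  let first : A × B → Seg := fun e => ⟨(e, 0), Nat.zero_le _⟩
  let last : A × B → Seg := fun e => ⟨(e, k e), le_rfl⟩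
  let o : Seg → Seg := fun σ => ⟨(σ.1.1, min (σ.1.2 + 1) (k σ.1.1)), min_le_right _ _⟩
  have hl : ∀ σ : Seg, σ ∉ range last ↔ σ.1.2 < k σ.1.1 := by
    intro σ
    constructor
    · intro h
      exact lt_of_le_of_ne σ.2 fun h' => h ⟨σ.1.1, Subtype.ext (Prod.ext rfl h'.symm)⟩
    · rintro h ⟨e, rfl⟩
      exact lt_irrefl _ h
  have hf : ∀ σ : Seg, σ ∉ range first ↔ 0 < σ.1.2 := by
    intro σ
    constructor
    · intro h
      exact Nat.pos_of_ne_zero fun h' => h ⟨σ.1.1, Subtype.ext (Prod.ext rfl h'.symm)⟩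
    · rintro h ⟨e, rfl⟩
      exact lt_irrefl _ h
  have ho : ∀ σ : Seg, σ ∉ range last → (o σ).1.2 = σ.1.2 + 1 := fun σ h =>
    min_eq_left ((hl σ).mp h)
  have hT : ∀ σ : Seg, σ ∉ range last → hi σ ∈ Ioo (0 : ℝ) 1 ∧ γ σ.1.1 (hi σ) ∈ X :=
    fun σ h => τT _ _ ((hl σ).mp h)
  have htgt : ∀ σ σ' : Seg, σ.1.1 = σ'.1.1 → γ σ.1.1 (hi σ) = γ σ'.1.1 (hi σ') → σ = σ' := by
    intro σ σ' he h
    rw [← he] at h
    have := hinj _ (hI σ _ ⟨(hlohi σ).le, le_rfl⟩) (hI σ' _ ⟨(hlohi σ').le, le_rfl⟩) h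
    simp only [hi, ← he] at this
    exact Subtype.ext (Prod.ext he (by have := (hτ _).injective this; omega))
  refine comb_bound P Q X (fun σ β => path (σ, β) 0) (fun σ => σ.1.1.1) first last
    (fun σ β => α (σ, β))
    (fun σ w => wind (path (σ, false)) 0 1 w - wind (path (σ, true)) 0 1 w)
    (fun σ β => G (σ, β)) (fun σ β => G' (σ, β)) (-(2 * Real.pi * Complex.I))
    (neg_ne_zero.mpr Complex.two_pi_I_ne_zero) hP hQ hPQ
    (fun e e' h => congrArg (fun σ : Seg => σ.1.1) h) (fun _ => rfl) (fun _ => rfl) ?_ ?_ o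
    ?_ ?_ ?_ (fun _ _ => rfl) ?_ ?_ ?_ ?_ ?_ hm hn
  · intro e
    rw [hp0, ← h0]
    exact congrArg _ (τ0 e)
  · intro e
    rw [hp0, ← h1]
    exact congrArg _ (τ1 e)
  · intro σ h
    rw [hf, ho σ h]
    exact Nat.succ_pos _
  · intro σ σ' h h' e
    have e0 : (o σ).1.1 = (o σ').1.1 := congrArg (fun σ : Seg => σ.1.1) e
    have e1 : σ.1.1 = σ'.1.1 := e0
    have e2 : (o σ).1.2 = (o σ').1.2 := congrArg (fun σ : Seg => σ.1.2) e
    rw [ho σ h, ho σ' h'] at e2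
    exact Subtype.ext (Prod.ext e1 (by omega))
  · intro σ h
    have h2 := (hf σ).mp h
    have h3 := σ.2
    refine ⟨⟨(σ.1.1, σ.1.2 - 1), by simp only; omega⟩, (hl _).mpr (by simp only; omega), ?_⟩
    exact Subtype.ext (Prod.ext rfl (by simp only [o]; omega))
  · intro σ h
    rw [hp0, hp0]
    exact congrArg (fun i => γ σ.1.1 (τ σ.1.1 i)) (ho σ h)
  · intro σ h
    rw [hp0]
    exact ⟨(hT σ h).2, hav _ _ (hT σ h).1⟩
  · intro σ σ' σ'' u u' u'' n' n'' e' e''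
    rw [hp0, hp0] at e' e''
    have a1 : σ.1.1 ≠ σ'.1.1 := fun h => n' (htgt _ _ h.symm e')
    have a2 : σ''.1.1 ≠ σ.1.1 := fun h => n'' (htgt _ _ h e'')
    have a3 := (htwo _ _ _ a1 _ (hT σ u).1 _ (hT σ' u').1 _ (hT σ'' u'').1 e' e'').resolve_left a2
    exact htgt _ _ a3.symm (e'.trans e''.symm)
  · intro σ β σ' β' hne hn
    by_cases hσ : σ = σ'
    · subst hσ
      exfalso
      rw [hp0, hp0] at hn
      have a1 := hlohi σ
      have a2 : ∀ β, par σ β ∈ Icc (0 : ℝ) 1 := fun β => by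
        have := hI _ _ (hθ1 (σ, β) 0 ⟨le_rfl, zero_le_one⟩)
        simpa [θ] using this
      have := hinj _ (a2 β) (a2 β') hn
      cases β <;> cases β' <;>
        simp only [par, if_true, Bool.false_eq_true, if_false, ne_eq, not_true] at this hne <;>
        linarith
    · exact hα _ _ (fun u hu u' hu' h => hu.1.ne'
        (hsep σ σ' β β' hσ u (Ioo_subset_Icc_self hu) u' (Ioo_subset_Icc_self hu') h).1) hn
  · intro σ σ' hne
    simp only [KK]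
    rw [← hJ _ _ (hsep σ σ' false false hne), ← hJ _ _ (hsep σ σ' false true hne),
      ← hJ _ _ (hsep σ σ' true false hne), ← hJ _ _ (hsep σ σ' true true hne)]
    simp only [hp1]
    ring

end Vale.Agent.P040
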