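import Mathlib.LinearAlgebra.Lagrange
import Mathlib.Data.Complex.Basic
import Mathlib.Order.Interval.Finset.Nat

namespace Vale.Agent.P040

open Polynomial Finset

variable {A : Type}

/-- Functions given by polynomials of degree `< d` in the node values `t`. -/
def RS (t : A → ℂ) (d : ℕ) : Submodule ℂ (A → ℂ) where
  carrier := {f | ∃ P : ℂ[X], P.degree < d ∧ ∀ a, f a = P.eval (t a)}
  zero_mem' := ⟨0, by simp, by simp⟩
  add_mem' := by
    rintro f g ⟨P, hP, hf⟩ ⟨Q, hQ, hg⟩
    exact ⟨P + Q, (degree_add_le _ _).trans_lt (max_lt hP hQ), fun a => by simp [hf, hg]⟩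
  smul_mem' := by
    rintro c f ⟨P, hP, hf⟩
    exact ⟨c • P, (degree_smul_le _ _).trans_lt hP, fun a => by simp [hf]⟩

variable {t : A → ℂ}

theorem RS.mono {d e : ℕ} (h : d ≤ e) {f : A → ℂ} (hf : f ∈ RS t d) : f ∈ RS t e := by
  obtain ⟨P, hP, hf⟩ := hf
  exact ⟨P, hP.trans_le (by exact_mod_cast h), hf⟩

theorem RS.eq_zero {f : A → ℂ} (hf : f ∈ RS t 0) (a : A) : f a = 0 := by
  obtain ⟨P, hP, hf⟩ := hf
  have : P = 0 := by
    rw [← degree_eq_bot]
    simpa using hP
  simp [hf, this]

theorem RS.mul {d e : ℕ} {f g : A → ℂ} (hf : f ∈ RS t (d + 1)) (hg : g ∈ RS t e) :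
    (fun a => f a * g a) ∈ RS t (d + e) := by
  obtain ⟨P, hP, hf⟩ := hf
  obtain ⟨Q, hQ, hg⟩ := hg
  refine ⟨P * Q, ?_, fun a => by simp [hf, hg]⟩
  by_cases hP0 : P = 0
  · simp [hP0]
  by_cases hQ0 : Q = 0
  · simp [hQ0]
  rw [degree_eq_natDegree hP0] at hP
  rw [degree_eq_natDegree hQ0] at hQ
  rw [degree_mul, degree_eq_natDegree hP0, degree_eq_natDegree hQ0]
  have h1 : P.natDegree < d + 1 := by exact_mod_cast hP
  have h2 : Q.natDegree < e := by exact_mod_cast hQ
  have : P.natDegree + Q.natDegree < d + e := by omega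
  exact_mod_cast this

theorem RS.lin (c : ℂ) : (fun a => t a - c) ∈ RS t (1 + 1) :=
  ⟨X - C c, by rw [degree_X_sub_C]; norm_num, fun a => by simp⟩

theorem RS.lin' (c : ℂ) : (fun a => c - t a) ∈ RS t (1 + 1) := by
  have := (RS t (1 + 1)).neg_mem (RS.lin c)
  convert this using 1
  funext a
  simp

theorem RS.pow {i d : ℕ} (h : i < d) : (fun a => t a ^ i) ∈ RS t d :=
  ⟨X ^ i, by rw [degree_X_pow]; exact_mod_cast h, fun a => by simp⟩

theorem RS.nodal (S : Finset A) {d : ℕ} (h : S.card < d) :
    (fun a => ∏ z ∈ S, (t a - t z)) ∈ RS t d :=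
  ⟨Lagrange.nodal S t, by rw [Lagrange.degree_nodal]; exact_mod_cast h,
    fun a => by rw [Lagrange.eval_nodal]⟩

theorem RS.const_mul {d : ℕ} {f : A → ℂ} (c : ℂ) (hf : f ∈ RS t d) :
    (fun a => c * f a) ∈ RS t d := (RS t d).smul_mem c hf

theorem RS.mul_const {d : ℕ} {f : A → ℂ} (c : ℂ) (hf : f ∈ RS t d) :
    (fun a => f a * c) ∈ RS t d := by
  simpa [mul_comm] using RS.const_mul c hf

theorem RS.sum {ι : Type} {d : ℕ} (s : Finset ι) {f : ι → A → ℂ} (hf : ∀ i ∈ s, f i ∈ RS t d) :
    (fun a => ∑ i ∈ s, f i a) ∈ RS t d := by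
  have := (RS t d).sum_mem hf
  convert this using 1
  funext a
  simp

theorem RS.eq_zero_of_zeros (ht : Function.Injective t) {d : ℕ} {f : A → ℂ} (hf : f ∈ RS t d)
    (S : Finset A) (hS : d ≤ S.card) (h0 : ∀ a ∈ S, f a = 0) (a : A) : f a = 0 := by
  obtain ⟨P, hP, hf⟩ := hf
  have : P = 0 := eq_zero_of_degree_lt_of_eval_index_eq_zero S ht.injOn
    (hP.trans_le (by exact_mod_cast hS)) fun i hi => by rw [← hf, h0 i hi]
  simp [hf, this]

theorem RS.div {d : ℕ} {f : A → ℂ} (hf : f ∈ RS t (d + 1)) {b : A} (hb : f b = 0) :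
    ∃ g ∈ RS t d, ∀ a, f a = (t a - t b) * g a := by
  obtain ⟨P, hP, hf⟩ := hf
  have hr : P.IsRoot (t b) := by rw [IsRoot, ← hf, hb]
  obtain ⟨Q, hQ⟩ := dvd_iff_isRoot.mpr hr
  refine ⟨fun a => Q.eval (t a), ⟨Q, ?_, fun a => rfl⟩, fun a => by rw [hf, hQ]; simp⟩
  by_cases hQ0 : Q = 0
  · simp [hQ0]
  rw [hQ, degree_mul, degree_X_sub_C, degree_eq_natDegree hQ0] at hP
  rw [degree_eq_natDegree hQ0]
  have : 1 + Q.natDegree < d + 1 := by exact_mod_cast hP
  have : Q.natDegree < d := by omega
  exact_mod_cast this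

theorem nodal_ne (ht : Function.Injective t) {S : Finset A} {a : A} (ha : a ∉ S) :
    ∏ z ∈ S, (t a - t z) ≠ 0 :=
  Finset.prod_ne_zero_iff.mpr fun _ hz => sub_ne_zero.mpr fun e => ha (ht e ▸ hz)

theorem nodal_zero {S : Finset A} {a : A} (ha : a ∈ S) : ∏ z ∈ S, (t a - t z) = 0 :=
  Finset.prod_eq_zero ha (sub_self _)

variable [Fintype A] [DecidableEq A]

theorem orth_support (ht : Function.Injective t) {d : ℕ} {h : A → ℂ} (S : Finset A)
    (hS : S.card ≤ d) (hsupp : ∀ a, a ∉ S → h a = 0)
    (horth : ∀ f ∈ RS t d, ∑ a, h a * f a = 0) (a : A) : h a = 0 := by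
  by_cases ha : a ∈ S
  · have h1 := horth _ (RS.nodal (S.erase a) (by
      rw [Finset.card_erase_of_mem ha]
      have := Finset.card_pos.mpr ⟨a, ha⟩
      omega))
    rw [Finset.sum_eq_single a] at h1
    · exact (mul_eq_zero.mp h1).resolve_right (nodal_ne ht (by simp))
    · intro b _ hb
      by_cases hbS : b ∈ S
      · rw [nodal_zero (by simp [hb, hbS]), mul_zero]
      · rw [hsupp b hbS, zero_mul]
    · simp
  · exact hsupp a ha

/-- Lagrange weights. -/
noncomputable def wt (t : A → ℂ) (a : A) : ℂ := Lagrange.nodalWeight Finset.univ t a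

theorem wt_ne (ht : Function.Injective t) (a : A) : wt t a ≠ 0 :=
  Lagrange.nodalWeight_ne_zero ht.injOn (Finset.mem_univ a)

theorem sum_wt (ht : Function.Injective t) {d : ℕ} (hd : d + 1 ≤ Fintype.card A) {f : A → ℂ}
    (hf : f ∈ RS t d) : ∑ a, wt t a * f a = 0 := by
  obtain ⟨P, hP, hf⟩ := hf
  have h1 := Lagrange.coeff_eq_sum (s := Finset.univ) ht.injOn (P := P)
    (hP.trans_le (by rw [Finset.card_univ]; exact_mod_cast (by omega : d ≤ Fintype.card A)))
  rw [coeff_eq_zero_of_degree_lt (hP.trans_le (by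
    rw [Finset.card_univ]; exact_mod_cast (by omega : d ≤ Fintype.card A - 1)))] at h1
  rw [h1]
  refine Finset.sum_congr rfl fun a _ => ?_
  rw [wt, Lagrange.nodalWeight, Finset.prod_inv_distrib, hf, div_eq_mul_inv, mul_comm]

omit [DecidableEq A] in
theorem card_rank {n : ℕ} (ρ : A ≃ Fin n) (P : ℕ → Prop) [DecidablePred P] :
    (Finset.univ.filter fun z => P (ρ z)).card = ((Finset.range n).filter P).card := by
  apply Finset.card_bij (fun z _ => (ρ z).val)
  · intro z hz
    simp only [Finset.mem_filter, Finset.mem_univ, true_and, Finset.mem_range] at hz ⊢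
    exact ⟨(ρ z).2, hz⟩
  · intro z _ z' _ e
    exact ρ.injective (Fin.ext e)
  · intro k hk
    simp only [Finset.mem_filter, Finset.mem_range] at hk
    exact ⟨ρ.symm ⟨k, hk.1⟩, by simpa using hk.2, by simp⟩

theorem tri_rows (ht : Function.Injective t) {p q : ℕ} (ρ : A ≃ Fin (p + q + 1)) (D : A → A → ℂ)
    (hrow : ∀ x, ∀ g ∈ RS t p, ∑ y, D x y * g y = 0) (hdiag : ∀ x, D x x = 0)
    (hbil : ∀ f ∈ RS t q, ∀ g ∈ RS t p,
      ∑ x, (∑ y, (if ρ x < ρ y then D x y else 0) * g y) * f x = 0) :
    ∀ g ∈ RS t p, ∀ x, ∑ y, (if ρ x < ρ y then D x y else 0) * g y = 0 := by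
  have window : ∀ k < p, ∃ g ∈ RS t p, (∀ z, (ρ z).val < k → g z = 0) ∧
      (∀ z, (ρ z).val = k → g z ≠ 0) ∧ ∀ x, ∑ y, (if ρ x < ρ y then D x y else 0) * g y = 0 := by
    intro k hk
    set S := Finset.univ.filter fun z => (ρ z).val < k ∨ k + q + 1 < (ρ z).val with hS
    have hSc : S.card < p := by
      rw [hS, card_rank ρ (fun i => i < k ∨ k + q + 1 < i)]
      have : ((Finset.range (p + q + 1)).filter fun i => i < k ∨ k + q + 1 < i) ⊆
          Finset.range k ∪ Finset.Ico (k + q + 2) (p + q + 1) := by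
        intro i hi
        simp only [Finset.mem_filter, Finset.mem_range, Finset.mem_union, Finset.mem_Ico] at hi ⊢
        omega
      have h2 := (Finset.card_le_card this).trans (Finset.card_union_le _ _)
      rw [Finset.card_range, Nat.card_Ico] at h2
      omega
    have hg := RS.nodal (t := t) S hSc
    have hz : ∀ z, (ρ z).val < k ∨ k + q + 1 < (ρ z).val → ∏ z' ∈ S, (t z - t z') = 0 :=
      fun z hz => nodal_zero (by simpa [hS] using hz)
    refine ⟨_, hg, fun z h => hz z (Or.inl h), fun z h => nodal_ne ht (by simp [hS, h]; omega), ?_⟩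
    apply orth_support ht (d := q)
      (Finset.univ.filter fun z => k < (ρ z).val ∧ (ρ z).val < k + q + 1)
    · rw [card_rank ρ (fun i => k < i ∧ i < k + q + 1)]
      have : ((Finset.range (p + q + 1)).filter fun i => k < i ∧ i < k + q + 1) ⊆
          Finset.Ioo k (k + q + 1) := by
        intro i hi
        simp only [Finset.mem_filter, Finset.mem_range, Finset.mem_Ioo] at hi ⊢
        omega
      have h2 := Finset.card_le_card this
      rw [Nat.card_Ioo] at h2
      omega
    · intro x hx
      simp only [Finset.mem_filter, Finset.mem_univ, true_and, not_and, not_lt] at hx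
      by_cases h1 : k < (ρ x).val
      · have h2 := hx h1
        refine Finset.sum_eq_zero fun y _ => ?_
        split_ifs with h3
        · rw [hz y (Or.inr (by rw [Fin.lt_def] at h3; omega)), mul_zero]
        · rw [zero_mul]
      · refine Eq.trans ?_ (hrow x _ hg)
        refine Finset.sum_congr rfl fun y _ => ?_
        split_ifs with h3
        · rfl
        · rw [Fin.lt_def] at h3
          by_cases h4 : (ρ y).val < k
          · rw [hz y (Or.inl h4), mul_zero, mul_zero]
          · have : y = x := ρ.injective (Fin.ext (by omega))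
            rw [this, hdiag]
    · exact fun f hf => hbil f hf _ hg
  have key : ∀ j, ∀ g ∈ RS t p, (∀ z, (ρ z).val + j < p → g z = 0) →
      ∀ x, ∑ y, (if ρ x < ρ y then D x y else 0) * g y = 0 := by
    intro j
    induction j with
    | zero =>
      intro g hg h0 x
      have := RS.eq_zero_of_zeros ht hg (Finset.univ.filter fun z => (ρ z).val < p) (by
        rw [card_rank ρ (fun i => i < p)]
        have : Finset.range p ⊆ ((Finset.range (p + q + 1)).filter fun i => i < p) := by
          intro i hi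
          simp only [Finset.mem_filter, Finset.mem_range] at hi ⊢
          omega
        simpa using Finset.card_le_card this) (fun a ha => h0 a (by simpa using ha))
      simp [this]
    | succ j ih =>
      intro g hg h0 x
      by_cases hj : j < p
      · obtain ⟨g0, hg0, h1, h2, h3⟩ := window (p - j - 1) (by omega)
        set z0 := ρ.symm ⟨p - j - 1, by omega⟩ with hz0
        have hz : (ρ z0).val = p - j - 1 := by simp [hz0]
        have h4 := ih (fun z => g z - g z0 / g0 z0 * g0 z)
          ((RS t p).sub_mem hg (RS.const_mul _ hg0)) (by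
            intro z hz'
            by_cases h5 : (ρ z).val = p - j - 1
            · have : z = z0 := ρ.injective (Fin.ext (by omega))
              rw [this, div_mul_cancel₀ _ (h2 z0 hz), sub_self]
            · rw [h0 z (by omega), h1 z (by omega), mul_zero, sub_zero]) x
        have h6 := h3 x
        simp only [mul_sub, Finset.sum_sub_distrib] at h4
        have h7 : ∑ y, (if ρ x < ρ y then D x y else 0) * (g z0 / g0 z0 * g0 y) =
            g z0 / g0 z0 * ∑ y, (if ρ x < ρ y then D x y else 0) * g0 y := by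
          rw [Finset.mul_sum]
          exact Finset.sum_congr rfl fun y _ => by ring
        rw [h7, h6, mul_zero, sub_zero] at h4
        exact h4
      · exact ih g hg (fun z hz => by omega) x
  exact fun g hg => key p g hg fun z hz => by omega

theorem tri_zero (ht : Function.Injective t) {p q : ℕ} (ρ : A ≃ Fin (p + q + 1)) (M : A → A → ℂ)
    (hrow : ∀ g ∈ RS t p, ∀ x, ∑ y, M x y * g y = 0)
    (hcol : ∀ f ∈ RS t q, ∀ y, ∑ x, M x y * f x = 0)
    (T : ℕ → Prop) [DecidablePred T] (hT : ((Finset.range (p + q + 1)).filter T).card ≤ q)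
    (hsupp : ∀ x, ¬ T (ρ x) → ∃ S : Finset A, S.card ≤ p ∧ ∀ y, y ∉ S → M x y = 0) (x y : A) :
    M x y = 0 := by
  apply orth_support ht (d := q) (h := fun x => M x y) (Finset.univ.filter fun z => T (ρ z))
  · rwa [card_rank ρ T]
  · intro z hz
    obtain ⟨S, h1, h2⟩ := hsupp z (by simpa using hz)
    exact orth_support ht (h := M z) S h1 h2 (fun g hg => hrow g hg z) y
  · exact fun f hf => hcol f hf y

/-- Nondegeneracy of triangular truncation. -/
theorem tri_nondeg (ht : Function.Injective t) {p q : ℕ} (ρ : A ≃ Fin (p + q + 1))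
    (D : A → A → ℂ) (hrow : ∀ x, ∀ g ∈ RS t p, ∑ y, D x y * g y = 0)
    (hcol : ∀ y, ∀ f ∈ RS t q, ∑ x, D x y * f x = 0) (hdiag : ∀ x, D x x = 0)
    (hbil : ∀ f ∈ RS t q, ∀ g ∈ RS t p,
      ∑ x, ∑ y, (if ρ x < ρ y then D x y else 0) * f x * g y = 0) (x y : A) : D x y = 0 := by
  have h1 := tri_rows ht ρ D hrow hdiag (by
    intro f hf g hg
    refine Eq.trans ?_ (hbil f hf g hg)
    refine Finset.sum_congr rfl fun x _ => ?_
    rw [Finset.sum_mul]
    exact Finset.sum_congr rfl fun y _ => by ring)
  let ρ' : A ≃ Fin (q + p + 1) := (ρ.trans Fin.revPerm).trans (finCongr (by omega))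
  have hρ' : ∀ a b, ρ' a < ρ' b ↔ ρ b < ρ a := by
    intro a b
    simp only [ρ', Equiv.trans_apply, Fin.revPerm_apply, finCongr_apply, Fin.lt_def, Fin.val_cast,
      Fin.val_rev]
    omega
  have h2 := tri_rows ht ρ' (fun y x => D x y) hcol hdiag (by
    intro g hg f hf
    refine Eq.trans ?_ (Finset.sum_comm.trans (hbil f hf g hg))
    refine Finset.sum_congr rfl fun y _ => ?_
    rw [Finset.sum_mul]
    refine Finset.sum_congr rfl fun x _ => ?_
    simp only [hρ'])
  simp only [hρ'] at h2
  have hup := tri_zero ht ρ (fun x y => if ρ x < ρ y then D x y else 0) h1 h2 (fun i => i < q)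
    (by
      have : ((Finset.range (p + q + 1)).filter fun i => i < q) ⊆ Finset.range q := by
        intro i hi
        simp only [Finset.mem_filter, Finset.mem_range] at hi ⊢
        omega
      simpa using Finset.card_le_card this) (by
      intro x hx
      refine ⟨Finset.univ.filter fun z => q < (ρ z).val, ?_, ?_⟩
      · rw [card_rank ρ (fun i => q < i)]
        have : ((Finset.range (p + q + 1)).filter fun i => q < i) ⊆ Finset.Ioo q (p + q + 1) := by
          intro i hi
          simp only [Finset.mem_filter, Finset.mem_range, Finset.mem_Ioo] at hi ⊢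
          omega
        have h3 := Finset.card_le_card this
        rw [Nat.card_Ioo] at h3
        omega
      · intro y hy
        simp only [Finset.mem_filter, Finset.mem_univ, true_and] at hy
        rw [if_neg (by rw [Fin.lt_def]; omega)])
  have hlow := tri_zero ht ρ (fun x y => D x y - if ρ x < ρ y then D x y else 0)
    (by
      intro g hg x
      simp only [sub_mul, Finset.sum_sub_distrib, hrow x g hg, h1 g hg x, sub_zero])
    (by
      intro f hf y
      simp only [sub_mul, Finset.sum_sub_distrib, hcol y f hf, h2 f hf y, sub_zero])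
    (fun i => p < i) (by
      have : ((Finset.range (p + q + 1)).filter fun i => p < i) ⊆ Finset.Ioo p (p + q + 1) := by
        intro i hi
        simp only [Finset.mem_filter, Finset.mem_range, Finset.mem_Ioo] at hi ⊢
        omega
      have h3 := Finset.card_le_card this
      rw [Nat.card_Ioo] at h3
      omega) (by
      intro x hx
      refine ⟨Finset.univ.filter fun z => (ρ z).val < p, ?_, ?_⟩
      · rw [card_rank ρ (fun i => i < p)]
        have : ((Finset.range (p + q + 1)).filter fun i => i < p) ⊆ Finset.range p := by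
          intro i hi
          simp only [Finset.mem_filter, Finset.mem_range] at hi ⊢
          omega
        simpa using Finset.card_le_card this
      · intro y hy
        simp only [Finset.mem_filter, Finset.mem_univ, true_and] at hy
        split_ifs with h3
        · exact sub_self _
        · have : y = x := ρ.injective (Fin.ext (by rw [Fin.lt_def] at h3; omega))
          rw [this, hdiag, sub_zero])
  have e1 := hup x y
  have e2 := hlow x y
  rw [e1, sub_zero] at e2
  exact e2

end Vale.Agent.P040
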